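import Mathlib

namespace Vale.Agent.P153

open Finset
open scoped FinsetFamily

section Holley

variable {α : Type*} [DistribLattice α]

/-- Weighted Holley inequality. -/
theorem holley_weighted (w₁ w₂ F : α → ℝ) (S T : Finset α)
    (hw₁ : ∀ a, 0 ≤ w₁ a) (hw₂ : ∀ a, 0 ≤ w₂ a) (hF0 : ∀ a, 0 ≤ F a) (hF : Monotone F)
    (hS : ∀ a, a ∉ S → w₁ a = 0) (hT : ∀ a, a ∉ T → w₂ a = 0)
    (hw : ∀ a b, w₁ a * w₂ b ≤ w₁ (a ⊓ b) * w₂ (a ⊔ b)) :
    (∑ a ∈ S, w₁ a * F a) * (∑ a ∈ T, w₂ a) ≤ (∑ a ∈ S, w₁ a) * ∑ a ∈ T, w₂ a * F a := by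
  classical
  have key := four_functions_theorem (fun a => w₁ a * F a) w₂ w₁ (fun a => w₂ a * F a)
    (fun a => mul_nonneg (hw₁ a) (hF0 a)) hw₂ hw₁ (fun a => mul_nonneg (hw₂ a) (hF0 a))
    (by
      intro a b
      have h1 := hw a b
      have h2 : F a ≤ F (a ⊔ b) := hF le_sup_left
      calc w₁ a * F a * w₂ b = (w₁ a * w₂ b) * F a := by ring
        _ ≤ (w₁ (a ⊓ b) * w₂ (a ⊔ b)) * F (a ⊔ b) :=
            mul_le_mul h1 h2 (hF0 a) (mul_nonneg (hw₁ _) (hw₂ _))
        _ = w₁ (a ⊓ b) * (w₂ (a ⊔ b) * F (a ⊔ b)) := by ring) S T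
  refine key.trans (mul_le_mul ?_ ?_ ?_ ?_)
  · calc ∑ a ∈ S ⊼ T, w₁ a = ∑ a ∈ (S ⊼ T) ∩ S, w₁ a := by
          symm
          apply Finset.sum_subset Finset.inter_subset_left
          intro a ha hna
          apply hS
          intro haS
          exact hna (Finset.mem_inter.2 ⟨ha, haS⟩)
      _ ≤ ∑ a ∈ S, w₁ a :=
          Finset.sum_le_sum_of_subset_of_nonneg Finset.inter_subset_right
            (fun a _ _ => hw₁ a)
  · calc ∑ a ∈ S ⊻ T, w₂ a * F a = ∑ a ∈ (S ⊻ T) ∩ T, w₂ a * F a := by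
          symm
          apply Finset.sum_subset Finset.inter_subset_left
          intro a ha hna
          rw [hT a, zero_mul]
          intro haS
          exact hna (Finset.mem_inter.2 ⟨ha, haS⟩)
      _ ≤ ∑ a ∈ T, w₂ a * F a :=
          Finset.sum_le_sum_of_subset_of_nonneg Finset.inter_subset_right
            (fun a _ _ => mul_nonneg (hw₂ a) (hF0 a))
  · exact Finset.sum_nonneg fun a _ => mul_nonneg (hw₂ a) (hF0 a)
  · exact Finset.sum_nonneg fun a _ => hw₁ a

/-- The average of `F` over the finite set `S`. -/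
noncomputable def ev (S : Finset α) (F : α → ℝ) : ℝ := (∑ a ∈ S, F a) / (#S : ℝ)

omit [DistribLattice α] in
theorem ev_add (S : Finset α) (F G : α → ℝ) : ev S (fun a => F a + G a) = ev S F + ev S G := by
  unfold ev
  rw [Finset.sum_add_distrib, add_div]

omit [DistribLattice α] in
theorem ev_sub (S : Finset α) (F G : α → ℝ) : ev S (fun a => F a - G a) = ev S F - ev S G := by
  unfold ev
  rw [Finset.sum_sub_distrib, sub_div]

omit [DistribLattice α] in
theorem ev_const_mul (S : Finset α) (c : ℝ) (F : α → ℝ) :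
    ev S (fun a => c * F a) = c * ev S F := by
  unfold ev
  rw [← Finset.mul_sum, mul_div_assoc]

omit [DistribLattice α] in
theorem ev_const (S : Finset α) (hS : S.Nonempty) (c : ℝ) : ev S (fun _ => c) = c := by
  unfold ev
  have : (#S : ℝ) ≠ 0 := by
    have := hS.card_pos
    positivity
  rw [Finset.sum_const, nsmul_eq_mul]
  field_simp

omit [DistribLattice α] in
theorem ev_mono (S : Finset α) (F G : α → ℝ) (h : ∀ a ∈ S, F a ≤ G a) : ev S F ≤ ev S G := by
  unfold ev
  apply div_le_div_of_nonneg_right (Finset.sum_le_sum h)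
  positivity

omit [DistribLattice α] in
theorem ev_nonneg (S : Finset α) (F : α → ℝ) (h : ∀ a ∈ S, 0 ≤ F a) : 0 ≤ ev S F := by
  unfold ev
  apply div_nonneg (Finset.sum_nonneg h)
  positivity

omit [DistribLattice α] in
theorem ev_congr (S : Finset α) (F G : α → ℝ) (h : ∀ a ∈ S, F a = G a) : ev S F = ev S G := by
  unfold ev
  rw [Finset.sum_congr rfl h]

omit [DistribLattice α] in
/-- Cauchy-Schwarz for the average. -/
theorem ev_abs_le (S : Finset α) (F : α → ℝ) :
    ev S (fun a => |F a|) ≤ √(ev S (fun a => F a ^ 2)) := by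
  rcases S.eq_empty_or_nonempty with h | hS
  · subst h
    simp [ev]
  apply Real.le_sqrt_of_sq_le
  set m := ev S (fun a => |F a|)
  have h0 : 0 ≤ ev S (fun a => (|F a| - m) ^ 2) := ev_nonneg _ _ fun a _ => sq_nonneg _
  have h1 : ev S (fun a => (|F a| - m) ^ 2)
      = ev S (fun a => F a ^ 2) - 2 * m * m + m ^ 2 := by
    have : (fun a => (|F a| - m) ^ 2) = fun a => (F a ^ 2 - (2 * m) * |F a|) + m ^ 2 := by
      funext a
      have := sq_abs (F a)
      nlinarith
    rw [this, ev_add, ev_sub, ev_const_mul, ev_const S hS]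
  nlinarith

/-- Holley's inequality for uniform measures on finite sets, the set `S` being below `T`. -/
theorem ev_le_ev (S T : Finset α) (hS : S.Nonempty) (hT : T.Nonempty)
    (hinf : ∀ a ∈ S, ∀ b ∈ T, a ⊓ b ∈ S) (hsup : ∀ a ∈ S, ∀ b ∈ T, a ⊔ b ∈ T)
    (F : α → ℝ) (hF : Monotone F) : ev S F ≤ ev T F := by
  classical
  -- a bound from below for `F` on everything that matters
  obtain ⟨M, hM⟩ : ∃ M : ℝ, ∀ a ∈ S ∪ T, -M ≤ F a := by
    obtain ⟨b, hb⟩ : ∃ b ∈ S ∪ T, ∀ a ∈ S ∪ T, F b ≤ F a :=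
      Finset.exists_min_image _ _ (hS.mono Finset.subset_union_left)
    exact ⟨-F b, fun a ha => by simpa using hb.2 a ha⟩
  let F' : α → ℝ := fun a => max (F a + M) 0
  have hF' : Monotone F' := fun a b hab => max_le_max (by linarith [hF hab]) le_rfl
  have hF'0 : ∀ a, 0 ≤ F' a := fun a => le_max_right _ _
  let w₁ : α → ℝ := fun a => if a ∈ S then 1 else 0
  let w₂ : α → ℝ := fun a => if a ∈ T then 1 else 0
  have hw₁ : ∀ a, 0 ≤ w₁ a := fun a => by dsimp [w₁]; split_ifs <;> norm_num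
  have hw₂ : ∀ a, 0 ≤ w₂ a := fun a => by dsimp [w₂]; split_ifs <;> norm_num
  have key := holley_weighted w₁ w₂ F' S T hw₁ hw₂ hF'0 hF'
    (fun a ha => by simp [w₁, ha]) (fun a ha => by simp [w₂, ha])
    (by
      intro a b
      by_cases ha : a ∈ S
      · by_cases hb : b ∈ T
        · simp [w₁, w₂, ha, hb, hinf a ha b hb, hsup a ha b hb]
        · have : w₁ a * w₂ b = 0 := by simp [w₂, hb]
          rw [this]
          exact mul_nonneg (hw₁ _) (hw₂ _)
      · have : w₁ a * w₂ b = 0 := by simp [w₁, ha]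
        rw [this]
        exact mul_nonneg (hw₁ _) (hw₂ _))
  have e1 : ∑ a ∈ S, w₁ a * F' a = ∑ a ∈ S, (F a + M) := by
    apply Finset.sum_congr rfl
    intro a ha
    have : 0 ≤ F a + M := by linarith [hM a (Finset.mem_union_left _ ha)]
    simp [w₁, ha, F', this]
  have e2 : ∑ a ∈ T, w₂ a * F' a = ∑ a ∈ T, (F a + M) := by
    apply Finset.sum_congr rfl
    intro a ha
    have : 0 ≤ F a + M := by linarith [hM a (Finset.mem_union_right _ ha)]
    simp [w₂, ha, F', this]
  have e3 : ∑ a ∈ S, w₁ a = #S := by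
    rw [Finset.sum_congr rfl (fun a ha => by simp [w₁, ha] : ∀ a ∈ S, w₁ a = 1)]
    simp
  have e4 : ∑ a ∈ T, w₂ a = #T := by
    rw [Finset.sum_congr rfl (fun a ha => by simp [w₂, ha] : ∀ a ∈ T, w₂ a = 1)]
    simp
  rw [e1, e2, e3, e4] at key
  have cS : (0 : ℝ) < #S := by exact_mod_cast hS.card_pos
  have cT : (0 : ℝ) < #T := by exact_mod_cast hT.card_pos
  have h1 : ev S (fun a => F a + M) ≤ ev T (fun a => F a + M) := by
    unfold ev
    rw [div_le_div_iff₀ cS cT]
    linarith
  rw [ev_add, ev_add, ev_const S hS, ev_const T hT] at h1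
  linarith

/-- Positive association (FKG) of the uniform measure on a finite sublattice. -/
theorem ev_mul_ge (S : Finset α) (hS : S.Nonempty)
    (hinf : ∀ a ∈ S, ∀ b ∈ S, a ⊓ b ∈ S) (hsup : ∀ a ∈ S, ∀ b ∈ S, a ⊔ b ∈ S)
    (F G : α → ℝ) (hF : Monotone F) (hG : Monotone G) :
    ev S F * ev S G ≤ ev S (fun a => F a * G a) := by
  classical
  obtain ⟨M, hM⟩ : ∃ M : ℝ, ∀ a ∈ S, -M ≤ F a := by
    obtain ⟨b, hb⟩ : ∃ b ∈ S, ∀ a ∈ S, F b ≤ F a := Finset.exists_min_image _ _ hS
    exact ⟨-F b, fun a ha => by simpa using hb.2 a ha⟩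
  obtain ⟨N, hN⟩ : ∃ N : ℝ, ∀ a ∈ S, -N ≤ G a := by
    obtain ⟨b, hb⟩ : ∃ b ∈ S, ∀ a ∈ S, G b ≤ G a := Finset.exists_min_image _ _ hS
    exact ⟨-G b, fun a ha => by simpa using hb.2 a ha⟩
  let F' : α → ℝ := fun a => max (F a + M) 0
  let G' : α → ℝ := fun a => max (G a + N) 0
  have hF' : Monotone F' := fun a b hab => max_le_max (by linarith [hF hab]) le_rfl
  have hF'0 : ∀ a, 0 ≤ F' a := fun a => le_max_right _ _
  have hG' : Monotone G' := fun a b hab => max_le_max (by linarith [hG hab]) le_rfl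
  have hG'0 : ∀ a, 0 ≤ G' a := fun a => le_max_right _ _
  have hFF : ∀ a ∈ S, F' a = F a + M := fun a ha => max_eq_left (by linarith [hM a ha])
  have hGG : ∀ a ∈ S, G' a = G a + N := fun a ha => max_eq_left (by linarith [hN a ha])
  let w₁ : α → ℝ := fun a => if a ∈ S then 1 else 0
  let w₂ : α → ℝ := fun a => if a ∈ S then G' a else 0
  have hw₁ : ∀ a, 0 ≤ w₁ a := fun a => by dsimp [w₁]; split_ifs <;> norm_num
  have hw₂ : ∀ a, 0 ≤ w₂ a := fun a => by
    dsimp [w₂]; split_ifs
    · exact hG'0 a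
    · exact le_rfl
  have key := holley_weighted w₁ w₂ F' S S hw₁ hw₂ hF'0 hF'
    (fun a ha => by simp [w₁, ha]) (fun a ha => by simp [w₂, ha])
    (by
      intro a b
      by_cases ha : a ∈ S
      · by_cases hb : b ∈ S
        · have := hG' (le_sup_right : b ≤ a ⊔ b)
          simpa [w₁, w₂, ha, hb, hinf a ha b hb, hsup a ha b hb] using this
        · have : w₁ a * w₂ b = 0 := by simp [w₂, hb]
          rw [this]
          exact mul_nonneg (hw₁ _) (hw₂ _)
      · have : w₁ a * w₂ b = 0 := by simp [w₁, ha]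
        rw [this]
        exact mul_nonneg (hw₁ _) (hw₂ _))
  have e1 : ∑ a ∈ S, w₁ a * F' a = ∑ a ∈ S, (F a + M) := by
    apply Finset.sum_congr rfl
    intro a ha
    simp [w₁, ha, hFF a ha]
  have e2 : ∑ a ∈ S, w₂ a * F' a = ∑ a ∈ S, (G a + N) * (F a + M) := by
    apply Finset.sum_congr rfl
    intro a ha
    simp [w₂, ha, hFF a ha, hGG a ha]
  have e3 : ∑ a ∈ S, w₁ a = #S := by
    rw [Finset.sum_congr rfl (fun a ha => by simp [w₁, ha] : ∀ a ∈ S, w₁ a = 1)]
    simp
  have e4 : ∑ a ∈ S, w₂ a = ∑ a ∈ S, (G a + N) := by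
    apply Finset.sum_congr rfl
    intro a ha
    simp [w₂, ha, hGG a ha]
  rw [e1, e2, e3, e4] at key
  have cS : (0 : ℝ) < #S := by exact_mod_cast hS.card_pos
  have h1 : ev S (fun a => F a + M) * ev S (fun a => G a + N)
      ≤ ev S (fun a => (G a + N) * (F a + M)) := by
    unfold ev
    rw [div_mul_div_comm, div_le_div_iff₀ (by positivity) cS]
    nlinarith
  have h2 : ev S (fun a => (G a + N) * (F a + M))
      = ev S (fun a => F a * G a) + N * ev S F + M * ev S G + M * N := by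
    have : (fun a => (G a + N) * (F a + M)) = fun a => ((F a * G a + N * F a) + M * G a) + M * N := by
      funext a; ring
    rw [this, ev_add, ev_add, ev_add, ev_const_mul, ev_const_mul, ev_const S hS]
  rw [ev_add, ev_add, ev_const S hS, ev_const S hS, h2] at h1
  nlinarith

end Holley

section Squeeze

variable {α : Type*} [DistribLattice α]

omit [DistribLattice α] in
/-- Second-moment comparison: if shifting the observable by `c` dominates in both directions, then
the root mean squares around any centre differ by at most `c`. -/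
theorem rms_compare (S T : Finset α) (hS : S.Nonempty) (X : α → ℝ) (c : ℝ)
    (hc : 0 ≤ c)
    (hup : ∀ ψ : ℝ → ℝ, Monotone ψ → ev S (fun a => ψ (X a)) ≤ ev T (fun a => ψ (X a + c)))
    (hdn : ∀ ψ : ℝ → ℝ, Antitone ψ → ev S (fun a => ψ (X a)) ≤ ev T (fun a => ψ (X a - c)))
    (m : ℝ) :
    √(ev S (fun a => (X a - m) ^ 2)) ≤ √(ev T (fun a => (X a - m) ^ 2)) + c := by
  let ψp : ℝ → ℝ := fun t => (max (t - m) c) ^ 2 - c ^ 2
  let ψm : ℝ → ℝ := fun t => (max (-(t - m)) c) ^ 2 - c ^ 2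
  have hp : Monotone ψp := by
    intro s t hst
    have h1 : max (s - m) c ≤ max (t - m) c := max_le_max (by linarith) le_rfl
    have h2 : 0 ≤ max (s - m) c := hc.trans (le_max_right _ _)
    dsimp [ψp]
    nlinarith
  have hm : Antitone ψm := by
    intro s t hst
    have h1 : max (-(t - m)) c ≤ max (-(s - m)) c := max_le_max (by linarith) le_rfl
    have h2 : 0 ≤ max (-(t - m)) c := hc.trans (le_max_right _ _)
    dsimp [ψm]
    nlinarith
  have h1 := hup ψp hp
  have h2 := hdn ψm hm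
  have e1 : ev S (fun a => (X a - m) ^ 2)
      ≤ c ^ 2 + (ev S (fun a => ψp (X a)) + ev S (fun a => ψm (X a))) := by
    rw [← ev_add, ← ev_const S hS (c ^ 2), ← ev_add]
    apply ev_mono
    intro a _
    dsimp [ψp, ψm]
    rcases le_total (X a - m) c with h | h
    · rw [max_eq_right h]
      rcases le_total (-(X a - m)) c with h' | h'
      · rw [max_eq_right h']; nlinarith [abs_le.2 ⟨by linarith, h⟩, abs_nonneg (X a - m),
          sq_abs (X a - m)]
      · rw [max_eq_left h']; nlinarith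
    · rw [max_eq_left h]
      have h' : -(X a - m) ≤ c := by linarith
      rw [max_eq_right h']; nlinarith
  have e2 : ev T (fun a => ψp (X a + c)) + ev T (fun a => ψm (X a - c))
      = ev T (fun a => (X a - m) ^ 2) + 2 * c * ev T (fun a => |X a - m|) := by
    rw [← ev_add, ← ev_const_mul, ← ev_add]
    apply ev_congr
    intro a _
    dsimp [ψp, ψm]
    rcases le_total 0 (X a - m) with h | h
    · rw [abs_of_nonneg h, max_eq_left (by linarith), max_eq_right (by linarith)]
      ring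
    · rw [abs_of_nonpos h, max_eq_right (by linarith), max_eq_left (by linarith)]
      ring
  have e3 : ev T (fun a => |X a - m|) ≤ √(ev T (fun a => (X a - m) ^ 2)) :=
    ev_abs_le T (fun a => X a - m)
  have e4 : 0 ≤ ev T (fun a => (X a - m) ^ 2) := ev_nonneg _ _ fun a _ => sq_nonneg _
  rw [Real.sqrt_le_left (by positivity)]
  have e5 := Real.sq_sqrt e4
  nlinarith [mul_le_mul_of_nonneg_left e3 hc]

end Squeeze

section Groups

/-- The product formula inequality `|H| |K| ≤ |H ⊓ K| |L|` for subgroups of a finite group `L`. -/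
theorem card_mul_card_le {G : Type*} [Group G] (H K L : Subgroup G) [Finite L]
    (hH : H ≤ L) (hK : K ≤ L) :
    Nat.card H * Nat.card K ≤ Nat.card (H ⊓ K : Subgroup G) * Nat.card L := by
  have hL0 : Nat.card L ≠ 0 := Nat.card_pos.ne'
  have h1 : Nat.card (H ⊓ K : Subgroup G) * K.relIndex H = Nat.card H := by
    have := Subgroup.relIndex_mul_relIndex (⊥ : Subgroup G) (H ⊓ K) H bot_le inf_le_left
    rwa [Subgroup.relIndex_bot_left, Subgroup.relIndex_bot_left, Subgroup.inf_relIndex_left]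
      at this
  have h2 : Nat.card K * K.relIndex L = Nat.card L := by
    have := Subgroup.relIndex_mul_relIndex (⊥ : Subgroup G) K L bot_le hK
    rwa [Subgroup.relIndex_bot_left, Subgroup.relIndex_bot_left] at this
  have h3 : K.relIndex H ≤ K.relIndex L := by
    apply Subgroup.relIndex_le_of_le_right hH
    intro h0
    rw [h0, mul_zero] at h2
    exact hL0 h2.symm
  calc Nat.card H * Nat.card K
      = Nat.card (H ⊓ K : Subgroup G) * K.relIndex H * Nat.card K := by rw [h1]
    _ ≤ Nat.card (H ⊓ K : Subgroup G) * K.relIndex L * Nat.card K := by gcongr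
    _ = Nat.card (H ⊓ K : Subgroup G) * (Nat.card K * K.relIndex L) := by ring
    _ = Nat.card (H ⊓ K : Subgroup G) * Nat.card L := by rw [h2]

end Groups

end Vale.Agent.P153
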