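import Vale.Agent.P153.MathlibUsed

namespace Vale.Agent.P153

/-- Nearest-neighbour adjacency of the triangular lattice; a vertex `x : ℤ × ℤ` stands for the
point `x.1 • (1, 0) + x.2 • (1/2, √3/2)` of the plane. -/
def Adj (x y : ℤ × ℤ) : Prop :=
  (y.1 - x.1, y.2 - x.2) ∈
    ({(1, 0), (-1, 0), (0, 1), (0, -1), (1, -1), (-1, 1)} : Set (ℤ × ℤ))

/-- The height functions of the model: odd-integer functions on the lattice which are equal to the
boundary data `η` off the finite set `D` of interior vertices and whose values at adjacent vertices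
differ by at most two (so by `0` or `2`). -/
def Conf (D : Finset (ℤ × ℤ)) (η : ℤ × ℤ → ℤ) : Set (ℤ × ℤ → ℤ) :=
  {h | (∀ x, Odd (h x)) ∧ (∀ x, x ∉ D → h x = η x) ∧ ∀ x y, Adj x y → |h x - h y| ≤ 2}

end Vale.Agent.P153
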