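import Mathlib
import Vale.Agent.P153.Lattice
import Vale.Agent.P153.FkgGen

namespace Vale.Agent.P153

open Finset

/-- Odd functions with steps at most two along edges. -/
def Lip (h : ℤ × ℤ → ℤ) : Prop := (∀ x, Odd (h x)) ∧ ∀ x y, Adj x y → |h x - h y| ≤ 2

theorem Lip.inf {h g : ℤ × ℤ → ℤ} (hh : Lip h) (hg : Lip g) : Lip (h ⊓ g) := by
  refine ⟨fun x => ?_, fun x y hxy => ?_⟩
  · rcases min_choice (h x) (g x) with h1 | h1
    · simpa [h1] using hh.1 x
    · simpa [h1] using hg.1 x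
  · have := abs_min_sub_min_le_max (h x) (g x) (h y) (g y)
    exact this.trans (max_le (hh.2 x y hxy) (hg.2 x y hxy))

theorem Lip.sup {h g : ℤ × ℤ → ℤ} (hh : Lip h) (hg : Lip g) : Lip (h ⊔ g) := by
  refine ⟨fun x => ?_, fun x y hxy => ?_⟩
  · rcases max_choice (h x) (g x) with h1 | h1
    · simpa [h1] using hh.1 x
    · simpa [h1] using hg.1 x
  · have := abs_max_sub_max_le_max (h x) (g x) (h y) (g y)
    exact this.trans (max_le (hh.2 x y hxy) (hg.2 x y hxy))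

theorem Adj.symm {x y : ℤ × ℤ} (h : Adj x y) : Adj y x := by
  unfold Adj at *
  simp only [Set.mem_insert_iff, Set.mem_singleton_iff, Prod.mk.injEq] at *
  omega

theorem adj_right (x : ℤ × ℤ) (k : ℕ) : Adj (x.1 + k, x.2) (x.1 + (k + 1 : ℕ), x.2) := by
  unfold Adj
  simp

theorem Lip.bdd {D : Finset (ℤ × ℤ)} {h : ℤ × ℤ → ℤ} (hh : Lip h)
    (hD : ∀ x, x ∉ D → |h x| ≤ 1) (x : ℤ × ℤ) : |h x| ≤ 1 + 2 * (#D : ℤ) := by
  have step : ∀ k : ℕ, |h (x.1 + k, x.2) - h x| ≤ 2 * (k : ℤ) := by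
    intro k
    induction k with
    | zero => simp
    | succ k ih =>
      have h1 := hh.2 _ _ (adj_right x k)
      rw [abs_sub_comm] at h1
      have h2 := abs_add_le (h (x.1 + (k + 1 : ℕ), x.2) - h (x.1 + k, x.2))
        (h (x.1 + k, x.2) - h x)
      have h3 : h (x.1 + (k + 1 : ℕ), x.2) - h (x.1 + k, x.2) + (h (x.1 + k, x.2) - h x)
        = h (x.1 + (k + 1 : ℕ), x.2) - h x := by ring
      rw [h3] at h2
      push_cast at *
      linarith
  have hex : ∃ k : ℕ, k ≤ #D ∧ ((x.1 + k, x.2) : ℤ × ℤ) ∉ D := by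
    by_contra hcon
    push Not at hcon
    have hinj : Function.Injective (fun k : ℕ => ((x.1 + k, x.2) : ℤ × ℤ)) := by
      intro a b hab
      simpa using hab
    have hsub : (Finset.range (#D + 1)).image (fun k : ℕ => ((x.1 + k, x.2) : ℤ × ℤ)) ⊆ D := by
      intro y hy
      rw [Finset.mem_image] at hy
      obtain ⟨k, hk, rfl⟩ := hy
      exact hcon k (by simpa [Nat.lt_succ_iff] using hk)
    have := Finset.card_le_card hsub
    rw [Finset.card_image_of_injective _ hinj, Finset.card_range] at this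
    omega
  obtain ⟨k, hk, hkD⟩ := hex
  have h1 := step k
  have h2 := hD _ hkD
  have hk' : (k : ℤ) ≤ (#D : ℤ) := by exact_mod_cast hk
  rw [abs_le] at *
  constructor <;> linarith [h1.1, h1.2, h2.1, h2.2]

theorem finite_bdd (U : Finset (ℤ × ℤ)) (ζ : ℤ × ℤ → ℤ) (M : ℤ) :
    {h : ℤ × ℤ → ℤ | (∀ x, |h x| ≤ M) ∧ ∀ x, x ∉ U → h x = ζ x}.Finite := by
  apply Set.Finite.of_finite_image (f := fun h : ℤ × ℤ → ℤ => fun x : U => h x)
  · apply Set.Finite.subset (s := Set.pi Set.univ (fun _ : U => Set.Icc (-M) M))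
    · exact Set.Finite.pi fun _ => Set.finite_Icc _ _
    · rintro g ⟨h, hh, rfl⟩
      intro x _
      exact abs_le.1 (hh.1 x)
  · intro h hh g hg hhg
    funext x
    by_cases hx : x ∈ U
    · exact congrFun hhg ⟨x, hx⟩
    · rw [hh.2 x hx, hg.2 x hx]

theorem conf_iff {D : Finset (ℤ × ℤ)} {η h : ℤ × ℤ → ℤ} :
    h ∈ Conf D η ↔ Lip h ∧ ∀ x, x ∉ D → h x = η x := by
  unfold Conf Lip
  show ((∀ x, Odd (h x)) ∧ (∀ x, x ∉ D → h x = η x) ∧ ∀ x y, Adj x y → |h x - h y| ≤ 2) ↔ _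
  tauto

theorem finite_conf (D : Finset (ℤ × ℤ)) (η : ℤ × ℤ → ℤ) (hη : ∀ x, η x = 1 ∨ η x = -1) :
    (Conf D η).Finite := by
  apply (finite_bdd D η (1 + 2 * (#D : ℤ))).subset
  intro h hh
  rw [conf_iff] at hh
  refine ⟨hh.1.bdd (D := D) fun x hx => ?_, hh.2⟩
  rw [hh.2 x hx]
  rcases hη x with h1 | h1 <;> simp [h1]

/-- The ensemble with free signs: absolute value one off `D`, value one off `U`. -/
def Free (D U : Finset (ℤ × ℤ)) : Set (ℤ × ℤ → ℤ) :=
  {h | Lip h ∧ (∀ x, x ∉ D → |h x| = 1) ∧ ∀ x, x ∉ U → h x = 1}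

/-- The possible absolute values. -/
def AbsConf (D : Finset (ℤ × ℤ)) : Set (ℤ × ℤ → ℤ) :=
  {a | Lip a ∧ (∀ x, 1 ≤ a x) ∧ ∀ x, x ∉ D → a x = 1}

theorem finite_free (D U : Finset (ℤ × ℤ)) : (Free D U).Finite := by
  apply (finite_bdd U (fun _ => 1) (1 + 2 * (#D : ℤ))).subset
  intro h hh
  exact ⟨hh.1.bdd (D := D) fun x hx => (hh.2.1 x hx).le, hh.2.2⟩

theorem finite_absConf (D : Finset (ℤ × ℤ)) : (AbsConf D).Finite := by
  apply (finite_bdd D (fun _ => 1) (1 + 2 * (#D : ℤ))).subset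
  intro h hh
  exact ⟨hh.1.bdd (D := D) fun x hx => by simp [hh.2.2 x hx], hh.2.2⟩

/-- The group of sign functions compatible with the absolute value `a`. -/
def SG (U : Finset (ℤ × ℤ)) (a : ℤ × ℤ → ℤ) : Subgroup (ℤ × ℤ → ℤˣ) where
  carrier := {s | (∀ x, x ∉ U → s x = 1) ∧
    ∀ x y, Adj x y → ¬ (a x ≤ 1 ∧ a y ≤ 1) → s x = s y}
  mul_mem' := by
    rintro s t ⟨hs1, hs2⟩ ⟨ht1, ht2⟩
    refine ⟨fun x hx => by simp [hs1 x hx, ht1 x hx], fun x y hxy h => ?_⟩
    simp [hs2 x y hxy h, ht2 x y hxy h]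
  one_mem' := by simp
  inv_mem' := by
    rintro s ⟨hs1, hs2⟩
    refine ⟨fun x hx => by simp [hs1 x hx], fun x y hxy h => ?_⟩
    simp [hs2 x y hxy h]

theorem mem_SG {U : Finset (ℤ × ℤ)} {a : ℤ × ℤ → ℤ} {s : ℤ × ℤ → ℤˣ} :
    s ∈ SG U a ↔ (∀ x, x ∉ U → s x = 1) ∧
      ∀ x y, Adj x y → ¬ (a x ≤ 1 ∧ a y ≤ 1) → s x = s y := Iff.rfl

theorem SG_sup (U : Finset (ℤ × ℤ)) (a b : ℤ × ℤ → ℤ) : SG U (a ⊔ b) = SG U a ⊓ SG U b := by
  ext s
  rw [Subgroup.mem_inf, mem_SG, mem_SG, mem_SG]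
  constructor
  · rintro ⟨h1, h2⟩
    refine ⟨⟨h1, fun x y hxy h => h2 x y hxy ?_⟩, ⟨h1, fun x y hxy h => h2 x y hxy ?_⟩⟩
    · rintro ⟨h3, h4⟩
      simp only [Pi.sup_apply, sup_le_iff] at h3 h4
      exact h ⟨h3.1, h4.1⟩
    · rintro ⟨h3, h4⟩
      simp only [Pi.sup_apply, sup_le_iff] at h3 h4
      exact h ⟨h3.2, h4.2⟩
  · rintro ⟨⟨h1, h2⟩, ⟨_, h4⟩⟩
    refine ⟨h1, fun x y hxy h => ?_⟩
    by_cases h5 : a x ≤ 1 ∧ a y ≤ 1
    · apply h4 x y hxy
      rintro ⟨h6, h7⟩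
      apply h
      simp only [Pi.sup_apply, sup_le_iff]
      exact ⟨⟨h5.1, h6⟩, ⟨h5.2, h7⟩⟩
    · exact h2 x y hxy h5

theorem SG_anti (U : Finset (ℤ × ℤ)) {a b : ℤ × ℤ → ℤ} (hab : a ≤ b) : SG U b ≤ SG U a := by
  intro s hs
  rw [mem_SG] at *
  refine ⟨hs.1, fun x y hxy h => hs.2 x y hxy ?_⟩
  rintro ⟨h1, h2⟩
  exact h ⟨(hab x).trans h1, (hab y).trans h2⟩

theorem finite_SG (U : Finset (ℤ × ℤ)) (a : ℤ × ℤ → ℤ) : ((SG U a : Set (ℤ × ℤ → ℤˣ))).Finite := by
  apply Set.Finite.of_finite_image (f := fun h : ℤ × ℤ → ℤˣ => fun x : U => h x)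
  · exact Set.toFinite _
  · intro h hh g hg hhg
    funext x
    by_cases hx : x ∈ U
    · exact congrFun hhg ⟨x, hx⟩
    · rw [hh.1 x hx, hg.1 x hx]

instance (U : Finset (ℤ × ℤ)) (a : ℤ × ℤ → ℤ) : Finite (SG U a) := (finite_SG U a).to_subtype

/-- Size of the sign group. -/
noncomputable def nSG (U : Finset (ℤ × ℤ)) (a : ℤ × ℤ → ℤ) : ℕ := Nat.card (SG U a)

theorem nSG_mul (U : Finset (ℤ × ℤ)) (a b : ℤ × ℤ → ℤ) :
    nSG U a * nSG U b ≤ nSG U (a ⊓ b) * nSG U (a ⊔ b) := by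
  have h := card_mul_card_le (SG U a) (SG U b) (SG U (a ⊓ b)) (SG_anti U inf_le_left)
    (SG_anti U inf_le_right)
  rw [← SG_sup] at h
  unfold nSG
  rw [mul_comm (Nat.card (SG U (a ⊓ b)))]
  exact h

/-- Finset of sign functions. -/
noncomputable def SGF (U : Finset (ℤ × ℤ)) (a : ℤ × ℤ → ℤ) : Finset (ℤ × ℤ → ℤˣ) :=
  (finite_SG U a).toFinset

theorem mem_SGF {U : Finset (ℤ × ℤ)} {a : ℤ × ℤ → ℤ} {s : ℤ × ℤ → ℤˣ} :
    s ∈ SGF U a ↔ s ∈ SG U a := by
  simp [SGF]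

theorem card_SGF (U : Finset (ℤ × ℤ)) (a : ℤ × ℤ → ℤ) : #(SGF U a) = nSG U a := by
  unfold SGF nSG
  rw [← Set.ncard_eq_toFinset_card _ (finite_SG U a)]
  rfl

open Classical in
/-- Correlation of two signs given the absolute value. -/
theorem sum_SGF (U : Finset (ℤ × ℤ)) (a : ℤ × ℤ → ℤ) (x y : ℤ × ℤ) :
    ∑ s ∈ SGF U a, (((s x : ℤˣ) : ℤ) : ℝ) * (((s y : ℤˣ) : ℤ) : ℝ)
      = if (∀ s ∈ SG U a, s x = s y) then (nSG U a : ℝ) else 0 := by
  split_ifs with h
  · rw [← card_SGF, Finset.card_eq_sum_ones, Nat.cast_sum]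
    apply Finset.sum_congr rfl
    intro s hs
    rw [h s (mem_SGF.1 hs)]
    rcases Int.units_eq_one_or (s y) with h1 | h1 <;> simp [h1]
  · push Not at h
    obtain ⟨t, ht, hxy⟩ := h
    have key : ∑ s ∈ SGF U a, (((s x : ℤˣ) : ℤ) : ℝ) * (((s y : ℤˣ) : ℤ) : ℝ)
        = ∑ s ∈ SGF U a, ((((t * s) x : ℤˣ) : ℤ) : ℝ) * ((((t * s) y : ℤˣ) : ℤ) : ℝ) := by
      symm
      apply Finset.sum_nbij' (fun s => t * s) (fun s => t⁻¹ * s)
      · intro s hs
        exact mem_SGF.2 (mul_mem ht (mem_SGF.1 hs))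
      · intro s hs
        exact mem_SGF.2 (mul_mem (inv_mem ht) (mem_SGF.1 hs))
      · intro s _; simp
      · intro s _; simp
      · intro s _; rfl
    have key2 : ∀ s ∈ SGF U a,
        ((((t * s) x : ℤˣ) : ℤ) : ℝ) * ((((t * s) y : ℤˣ) : ℤ) : ℝ)
          = - ((((s x : ℤˣ) : ℤ) : ℝ) * (((s y : ℤˣ) : ℤ) : ℝ)) := by
      intro s _
      rcases Int.units_eq_one_or (t x) with h1 | h1 <;>
        rcases Int.units_eq_one_or (t y) with h2 | h2
      · exact absurd (h1.trans h2.symm) hxy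
      · simp [h1, h2]
      · simp [h1, h2]
      · exact absurd (h1.trans h2.symm) hxy
    rw [Finset.sum_congr rfl key2, Finset.sum_neg_distrib] at key
    linarith

/-- Finset versions. -/
noncomputable def FreeF (D U : Finset (ℤ × ℤ)) : Finset (ℤ × ℤ → ℤ) := (finite_free D U).toFinset

/-- Finset versions. -/
noncomputable def AbsF (D : Finset (ℤ × ℤ)) : Finset (ℤ × ℤ → ℤ) := (finite_absConf D).toFinset

theorem mem_FreeF {D U : Finset (ℤ × ℤ)} {h : ℤ × ℤ → ℤ} : h ∈ FreeF D U ↔ h ∈ Free D U := by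
  simp [FreeF]

theorem mem_AbsF {D : Finset (ℤ × ℤ)} {h : ℤ × ℤ → ℤ} : h ∈ AbsF D ↔ h ∈ AbsConf D := by
  simp [AbsF]

/-- The sign of an odd (nonzero) integer as a unit. -/
def sgn (n : ℤ) : ℤˣ := if 0 < n then 1 else -1

theorem sgn_mul_abs (n : ℤ) : (sgn n : ℤ) * |n| = n := by
  unfold sgn
  split_ifs with h
  · simp [abs_of_pos h]
  · push Not at h
    simp [abs_of_nonpos h]

theorem odd_ne_zero {n : ℤ} (h : Odd n) : n ≠ 0 := by
  rintro rfl
  exact (by decide : ¬ Odd (0 : ℤ)) h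

theorem one_le_abs_of_odd {n : ℤ} (h : Odd n) : 1 ≤ |n| := Int.one_le_abs (odd_ne_zero h)

theorem sgn_units_mul (u : ℤˣ) {n : ℤ} (hn : 1 ≤ n) : sgn ((u : ℤ) * n) = u := by
  unfold sgn
  rcases Int.units_eq_one_or u with h1 | h1
  · subst h1
    have : 0 < n := by omega
    simp [this]
  · subst h1
    have : ¬ (n < 0) := by omega
    simp [this]

theorem abs_units_mul (u : ℤˣ) {n : ℤ} (hn : 1 ≤ n) : |(u : ℤ) * n| = n := by
  have : 0 ≤ n := by omega
  rcases Int.units_eq_one_or u with h1 | h1 <;> subst h1 <;> simp [abs_of_nonneg this]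

/-- Decomposition of the free ensemble into absolute value and signs. -/
theorem sum_free {D U : Finset (ℤ × ℤ)} (hDU : ∀ x ∈ D, x ∈ U) (F : (ℤ × ℤ → ℤ) → ℝ) :
    ∑ h ∈ FreeF D U, F h = ∑ a ∈ AbsF D, ∑ s ∈ SGF U a, F (fun x => (s x : ℤ) * a x) := by
  rw [Finset.sum_sigma' (AbsF D) (fun a => SGF U a)
    (fun a s => F (fun x => (s x : ℤ) * a x))]
  apply Finset.sum_nbij' (i := fun h : ℤ × ℤ → ℤ =>
      (⟨fun x => |h x|, fun x => sgn (h x)⟩ : (_ : ℤ × ℤ → ℤ) × (ℤ × ℤ → ℤˣ)))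
    (j := fun p => fun x => ((p.2 x : ℤˣ) : ℤ) * p.1 x)
  · intro h hh
    rw [mem_FreeF] at hh
    obtain ⟨⟨ho, hl⟩, h1, h2⟩ := hh
    rw [Finset.mem_sigma]
    refine ⟨mem_AbsF.2 ⟨⟨fun x => ?_, fun x y hxy => ?_⟩, fun x => one_le_abs_of_odd (ho x),
      fun x hx => h1 x hx⟩, mem_SGF.2 (mem_SG.2 ⟨fun x hx => ?_, fun x y hxy hne => ?_⟩)⟩
    · exact odd_abs.2 (ho x)
    · exact (abs_abs_sub_abs_le (h x) (h y)).trans (hl x y hxy)
    · simp [h2 x hx, sgn]
    · have hx := odd_ne_zero (ho x)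
      have hy := odd_ne_zero (ho y)
      have hd := hl x y hxy
      have ox := one_le_abs_of_odd (ho x)
      have oy := one_le_abs_of_odd (ho y)
      simp only [sgn]
      rw [abs_le] at hd
      split_ifs with h3 h4 h4
      · rfl
      · exfalso
        apply hne
        dsimp only
        rw [abs_of_pos h3, abs_of_nonpos (not_lt.1 h4)]
        omega
      · exfalso
        apply hne
        dsimp only
        rw [abs_of_pos h4, abs_of_nonpos (not_lt.1 h3)]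
        omega
      · rfl
  · rintro ⟨a, s⟩ hp
    rw [Finset.mem_sigma] at hp
    obtain ⟨ha, hs⟩ := hp
    rw [mem_AbsF] at ha
    rw [mem_SGF, mem_SG] at hs
    obtain ⟨⟨ho, hl⟩, h1, h2⟩ := ha
    dsimp only at hs ⊢
    rw [mem_FreeF]
    refine ⟨⟨fun x => ?_, fun x y hxy => ?_⟩, fun x hx => ?_, fun x hx => ?_⟩
    · rcases Int.units_eq_one_or (s x) with h3 | h3
      · simpa [h3] using ho x
      · simpa [h3] using ho x
    · by_cases hc : a x ≤ 1 ∧ a y ≤ 1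
      · have e1 : a x = 1 := le_antisymm hc.1 (h1 x)
        have e2 : a y = 1 := le_antisymm hc.2 (h1 y)
        rcases Int.units_eq_one_or (s x) with h3 | h3 <;>
          rcases Int.units_eq_one_or (s y) with h4 | h4 <;> simp [h3, h4, e1, e2]
      · dsimp only
        rw [hs.2 x y hxy hc]
        rcases Int.units_eq_one_or (s y) with h4 | h4
        · simpa [h4] using hl x y hxy
        · have := hl x y hxy
          rw [abs_sub_comm] at this
          simp only [h4, Units.val_neg, Units.val_one]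
          convert this using 2
          ring
    · rw [abs_units_mul _ (h1 x), h2 x hx]
    · have e1 := h2 x (fun hxD => hx (hDU x hxD))
      dsimp only at e1 ⊢
      rw [hs.1 x hx, e1]
      simp
  · intro h _
    funext x
    exact sgn_mul_abs (h x)
  · rintro ⟨a, s⟩ hp
    rw [Finset.mem_sigma] at hp
    obtain ⟨ha, _⟩ := hp
    rw [mem_AbsF] at ha
    have h1 := ha.2.1
    dsimp only at h1 ⊢
    have e1 : (fun x => |((s x : ℤˣ) : ℤ) * a x|) = a := by
      funext x; exact abs_units_mul _ (h1 x)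
    have e2 : (fun x => sgn (((s x : ℤˣ) : ℤ) * a x)) = s := by
      funext x; exact sgn_units_mul _ (h1 x)
    rw [e1, e2]
  · intro h _
    congr 1
    funext x
    exact (sgn_mul_abs (h x)).symm

open Classical in
/-- The two-point observable in terms of absolute values. -/
noncomputable def G2 (U : Finset (ℤ × ℤ)) (x y : ℤ × ℤ) (a : ℤ × ℤ → ℤ) : ℝ :=
  if (∀ s ∈ SG U a, s x = s y) then ((max (a x) 1 : ℤ) : ℝ) * ((max (a y) 1 : ℤ) : ℝ) else 0

theorem G2_nonneg (U : Finset (ℤ × ℤ)) (x y : ℤ × ℤ) (a : ℤ × ℤ → ℤ) : 0 ≤ G2 U x y a := by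
  unfold G2
  split_ifs
  · apply mul_nonneg
    · exact_mod_cast (zero_le_one.trans (le_max_right (a x) 1))
    · exact_mod_cast (zero_le_one.trans (le_max_right (a y) 1))
  · exact le_rfl

theorem G2_mono (U : Finset (ℤ × ℤ)) (x y : ℤ × ℤ) : Monotone (G2 U x y) := by
  intro a b hab
  by_cases h : ∀ s ∈ SG U a, s x = s y
  · have h' : ∀ s ∈ SG U b, s x = s y := fun s hs => h s (SG_anti U hab hs)
    unfold G2
    rw [if_pos h, if_pos h']
    have h1 : max (a x) 1 ≤ max (b x) 1 := max_le_max (hab x) le_rfl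
    have h2 : max (a y) 1 ≤ max (b y) 1 := max_le_max (hab y) le_rfl
    have h3 : (0 : ℤ) ≤ max (a x) 1 := zero_le_one.trans (le_max_right (a x) 1)
    have h4 : (0 : ℤ) ≤ max (a y) 1 := zero_le_one.trans (le_max_right (a y) 1)
    exact_mod_cast mul_le_mul h1 h2 h4 (h3.trans h1)
  · have : G2 U x y a = 0 := by
      unfold G2
      rw [if_neg h]
    rw [this]
    exact G2_nonneg _ _ _ _

theorem sum_free_two {D U : Finset (ℤ × ℤ)} (hDU : ∀ x ∈ D, x ∈ U) (x y : ℤ × ℤ) :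
    ∑ h ∈ FreeF D U, (h x : ℝ) * (h y : ℝ) = ∑ a ∈ AbsF D, (nSG U a : ℝ) * G2 U x y a := by
  rw [sum_free hDU]
  apply Finset.sum_congr rfl
  intro a ha
  have h1 := (mem_AbsF.1 ha).2.1
  have e : ∀ s ∈ SGF U a, (((s x : ℤˣ) : ℤ) * a x : ℤ) * ((((s y : ℤˣ) : ℤ) * a y : ℤ) : ℝ)
      = ((a x : ℝ) * (a y : ℝ)) * ((((s x : ℤˣ) : ℤ) : ℝ) * (((s y : ℤˣ) : ℤ) : ℝ)) := by
    intro s _
    push_cast
    ring
  rw [Finset.sum_congr rfl e, ← Finset.mul_sum, sum_SGF]
  unfold G2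
  rw [max_eq_left (h1 x), max_eq_left (h1 y)]
  split_ifs
  · ring
  · ring

theorem card_free {D U : Finset (ℤ × ℤ)} (hDU : ∀ x ∈ D, x ∈ U) :
    ((#(FreeF D U) : ℕ) : ℝ) = ∑ a ∈ AbsF D, (nSG U a : ℝ) := by
  have := sum_free hDU (fun _ => (1 : ℝ))
  simp only [Finset.sum_const, nsmul_eq_mul, mul_one, card_SGF] at this
  exact this

theorem nonempty_free (D U : Finset (ℤ × ℤ)) : (FreeF D U).Nonempty := by
  refine ⟨fun _ => 1, mem_FreeF.2 ⟨⟨fun _ => odd_one, fun x y _ => by simp⟩,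
    fun x _ => by simp, fun x _ => rfl⟩⟩

/-- Monotonicity in the domain of the two-point function of the free ensemble. -/
theorem free_two_mono {D' D U : Finset (ℤ × ℤ)} (hD : D' ⊆ D) (hDU : ∀ x ∈ D, x ∈ U)
    (x y : ℤ × ℤ) :
    ev (FreeF D' U) (fun h => (h x : ℝ) * (h y : ℝ))
      ≤ ev (FreeF D U) (fun h => (h x : ℝ) * (h y : ℝ)) := by
  classical
  have hD'U : ∀ x ∈ D', x ∈ U := fun x hx => hDU x (hD hx)
  have c1 : (0 : ℝ) < #(FreeF D' U) := by exact_mod_cast (nonempty_free D' U).card_pos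
  have c2 : (0 : ℝ) < #(FreeF D U) := by exact_mod_cast (nonempty_free D U).card_pos
  unfold ev
  rw [div_le_div_iff₀ c1 c2, sum_free_two hD'U, sum_free_two hDU, card_free hD'U, card_free hDU]
  let w₁ : (ℤ × ℤ → ℤ) → ℝ := fun a => if a ∈ AbsF D' then (nSG U a : ℝ) else 0
  let w₂ : (ℤ × ℤ → ℤ) → ℝ := fun a => if a ∈ AbsF D then (nSG U a : ℝ) else 0
  have hw₁ : ∀ a, 0 ≤ w₁ a := fun a => by dsimp [w₁]; split_ifs <;> positivity
  have hw₂ : ∀ a, 0 ≤ w₂ a := fun a => by dsimp [w₂]; split_ifs <;> positivity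
  have key := holley_weighted w₁ w₂ (G2 U x y) (AbsF D') (AbsF D) hw₁ hw₂
    (G2_nonneg U x y) (G2_mono U x y)
    (fun a ha => by simp [w₁, ha]) (fun a ha => by simp [w₂, ha])
    (by
      intro a b
      by_cases ha : a ∈ AbsF D'
      · by_cases hb : b ∈ AbsF D
        · have hinf : a ⊓ b ∈ AbsF D' := by
            rw [mem_AbsF] at *
            refine ⟨ha.1.inf hb.1, fun z => ?_, fun z hz => ?_⟩
            · exact le_min (ha.2.1 z) (hb.2.1 z)
            · have := ha.2.2 z hz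
              have h2 := hb.2.1 z
              simp only [Pi.inf_apply]
              rw [this]
              exact min_eq_left h2
          have hsup : a ⊔ b ∈ AbsF D := by
            rw [mem_AbsF] at *
            refine ⟨ha.1.sup hb.1, fun z => ?_, fun z hz => ?_⟩
            · exact (ha.2.1 z).trans (le_max_left _ _)
            · have h1 := ha.2.2 z (fun hz' => hz (hD hz'))
              have h2 := hb.2.2 z hz
              simp [h1, h2]
          simp only [w₁, w₂, ha, hb, hinf, hsup, if_true]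
          exact_mod_cast nSG_mul U a b
        · have : w₁ a * w₂ b = 0 := by simp [w₂, hb]
          rw [this]
          exact mul_nonneg (hw₁ _) (hw₂ _)
      · have : w₁ a * w₂ b = 0 := by simp [w₁, ha]
        rw [this]
        exact mul_nonneg (hw₁ _) (hw₂ _))
  have e1 : ∑ a ∈ AbsF D', w₁ a * G2 U x y a = ∑ a ∈ AbsF D', (nSG U a : ℝ) * G2 U x y a := by
    apply Finset.sum_congr rfl
    intro a ha
    simp [w₁, ha]
  have e2 : ∑ a ∈ AbsF D, w₂ a * G2 U x y a = ∑ a ∈ AbsF D, (nSG U a : ℝ) * G2 U x y a := by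
    apply Finset.sum_congr rfl
    intro a ha
    simp [w₂, ha]
  have e3 : ∑ a ∈ AbsF D', w₁ a = ∑ a ∈ AbsF D', (nSG U a : ℝ) := by
    apply Finset.sum_congr rfl
    intro a ha
    simp [w₁, ha]
  have e4 : ∑ a ∈ AbsF D, w₂ a = ∑ a ∈ AbsF D, (nSG U a : ℝ) := by
    apply Finset.sum_congr rfl
    intro a ha
    simp [w₂, ha]
  rw [e1, e2, e3, e4] at key
  linarith

/-- The one-point function of the free ensemble vanishes. -/
theorem free_one {D U : Finset (ℤ × ℤ)} (hcl : ∀ x ∈ D, ∀ y, Adj x y → y ∈ U)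
    {z : ℤ × ℤ} (hz : z ∈ U) : ∑ h ∈ FreeF D U, (h z : ℝ) = 0 := by
  have hmem : ∀ h ∈ FreeF D U, (fun x => if x ∈ U then -h x else h x) ∈ FreeF D U := by
    intro h hh
    rw [mem_FreeF] at *
    obtain ⟨⟨ho, hl⟩, h1, h2⟩ := hh
    refine ⟨⟨fun x => ?_, fun x y hxy => ?_⟩, fun x hx => ?_, fun x hx => ?_⟩
    · dsimp only
      split_ifs
      · exact (ho x).neg
      · exact ho x
    · have hd := hl x y hxy
      by_cases hx : x ∈ U <;> by_cases hy : y ∈ U
      · simp only [hx, hy, if_true]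
        rw [abs_sub_comm] at hd
        convert hd using 2
        ring
      · have hxD : x ∉ D := fun hxD => hy (hcl x hxD y hxy)
        have e1 := h1 x hxD
        have e2 := h2 y hy
        simp only [hx, hy, if_true, if_false, e2]
        rcases abs_eq (zero_le_one) |>.1 e1 with e3 | e3 <;> simp [e3]
      · have hyD : y ∉ D := fun hyD => hx (hcl y hyD x hxy.symm)
        have e1 := h1 y hyD
        have e2 := h2 x hx
        simp only [hx, hy, if_true, if_false, e2]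
        rcases abs_eq (zero_le_one) |>.1 e1 with e3 | e3 <;> simp [e3]
      · simp only [hx, hy, if_false]
        exact hd
    · dsimp only
      split_ifs
      · rw [abs_neg]; exact h1 x hx
      · exact h1 x hx
    · simp [hx, h2 x hx]
  have key : ∑ h ∈ FreeF D U, (h z : ℝ) = ∑ h ∈ FreeF D U, (-(h z : ℝ)) := by
    apply Finset.sum_nbij' (fun h => fun x => if x ∈ U then -h x else h x)
      (fun h => fun x => if x ∈ U then -h x else h x) hmem hmem
    · intro h _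
      funext x
      dsimp only
      split_ifs <;> simp
    · intro h _
      funext x
      dsimp only
      split_ifs <;> simp
    · intro h _
      simp [hz]
  rw [Finset.sum_neg_distrib] at key
  linarith

end Vale.Agent.P153
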