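import Mathlib
import Vale.Agent.P153.Lattice
import Vale.Agent.P153.FkgGen
import Vale.Agent.P153.FkgFree

namespace Vale.Agent.P153

open Finset

/-- Finset version of the configuration set. -/
noncomputable def ConfF (D : Finset (ℤ × ℤ)) (η : ℤ × ℤ → ℤ)
    (hη : ∀ x, η x = 1 ∨ η x = -1) : Finset (ℤ × ℤ → ℤ) := (finite_conf D η hη).toFinset

theorem mem_ConfF {D : Finset (ℤ × ℤ)} {η : ℤ × ℤ → ℤ} {hη : ∀ x, η x = 1 ∨ η x = -1}
    {h : ℤ × ℤ → ℤ} : h ∈ ConfF D η hη ↔ Lip h ∧ ∀ x, x ∉ D → h x = η x := by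
  rw [← conf_iff]
  simp [ConfF]

theorem nonempty_ConfF (D : Finset (ℤ × ℤ)) (η : ℤ × ℤ → ℤ) (hη : ∀ x, η x = 1 ∨ η x = -1) :
    (ConfF D η hη).Nonempty := by
  refine ⟨η, mem_ConfF.2 ⟨⟨fun x => ?_, fun x y _ => ?_⟩, fun x _ => rfl⟩⟩
  · rcases hη x with h | h <;> rw [h] <;> decide
  · rcases hη x with h | h <;> rcases hη y with h' | h' <;> rw [h, h'] <;> norm_num

/-- The lower and upper constant boundary conditions. -/
noncomputable def Cminus (D : Finset (ℤ × ℤ)) : Finset (ℤ × ℤ → ℤ) :=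
  ConfF D (fun _ => -1) (fun _ => Or.inr rfl)

/-- The lower and upper constant boundary conditions. -/
noncomputable def Cplus (D : Finset (ℤ × ℤ)) : Finset (ℤ × ℤ → ℤ) :=
  ConfF D (fun _ => 1) (fun _ => Or.inl rfl)

/-- The set `S` of height functions lies between the two constant boundary conditions. -/
def Between (D : Finset (ℤ × ℤ)) (S : Finset (ℤ × ℤ → ℤ)) : Prop :=
  (∀ a ∈ Cminus D, ∀ b ∈ S, a ⊓ b ∈ Cminus D ∧ a ⊔ b ∈ S) ∧
    ∀ a ∈ S, ∀ b ∈ Cplus D, a ⊓ b ∈ S ∧ a ⊔ b ∈ Cplus D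

theorem between_conf (D : Finset (ℤ × ℤ)) (η : ℤ × ℤ → ℤ) (hη : ∀ x, η x = 1 ∨ η x = -1) :
    Between D (ConfF D η hη) := by
  constructor
  · intro a ha b hb
    unfold Cminus at *
    rw [mem_ConfF] at ha hb
    refine ⟨mem_ConfF.2 ⟨ha.1.inf hb.1, fun x hx => ?_⟩,
      mem_ConfF.2 ⟨ha.1.sup hb.1, fun x hx => ?_⟩⟩
    · simp only [Pi.inf_apply, ha.2 x hx, hb.2 x hx]
      rcases hη x with h | h <;> rw [h] <;> decide
    · simp only [Pi.sup_apply, ha.2 x hx, hb.2 x hx]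
      rcases hη x with h | h <;> rw [h] <;> decide
  · intro a ha b hb
    unfold Cplus at *
    rw [mem_ConfF] at ha hb
    refine ⟨mem_ConfF.2 ⟨ha.1.inf hb.1, fun x hx => ?_⟩,
      mem_ConfF.2 ⟨ha.1.sup hb.1, fun x hx => ?_⟩⟩
    · simp only [Pi.inf_apply, ha.2 x hx, hb.2 x hx]
      rcases hη x with h | h <;> rw [h] <;> decide
    · simp only [Pi.sup_apply, ha.2 x hx, hb.2 x hx]
      rcases hη x with h | h <;> rw [h] <;> decide

theorem between_free (D U : Finset (ℤ × ℤ)) (hDU : ∀ x ∈ D, x ∈ U) : Between D (FreeF D U) := by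
  constructor
  · intro a ha b hb
    unfold Cminus at *
    rw [mem_ConfF] at ha
    rw [mem_FreeF] at hb
    refine ⟨mem_ConfF.2 ⟨ha.1.inf hb.1, fun x hx => ?_⟩,
      mem_FreeF.2 ⟨ha.1.sup hb.1, fun x hx => ?_, fun x hx => ?_⟩⟩
    · simp only [Pi.inf_apply, ha.2 x hx]
      rcases (abs_eq zero_le_one).1 (hb.2.1 x hx) with h | h <;> rw [h] <;> decide
    · simp only [Pi.sup_apply, ha.2 x hx]
      rcases (abs_eq zero_le_one).1 (hb.2.1 x hx) with h | h <;> rw [h] <;> decide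
    · simp only [Pi.sup_apply, ha.2 x (fun h => hx (hDU x h)), hb.2.2 x hx]
      decide
  · intro a ha b hb
    unfold Cplus at *
    rw [mem_ConfF] at hb
    rw [mem_FreeF] at ha
    refine ⟨mem_FreeF.2 ⟨ha.1.inf hb.1, fun x hx => ?_, fun x hx => ?_⟩,
      mem_ConfF.2 ⟨ha.1.sup hb.1, fun x hx => ?_⟩⟩
    · simp only [Pi.inf_apply, hb.2 x hx]
      rcases (abs_eq zero_le_one).1 (ha.2.1 x hx) with h | h <;> rw [h] <;> decide
    · simp only [Pi.inf_apply, hb.2 x (fun h => hx (hDU x h)), ha.2.2 x hx]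
      decide
    · simp only [Pi.sup_apply, hb.2 x hx]
      rcases (abs_eq zero_le_one).1 (ha.2.1 x hx) with h | h <;> rw [h] <;> decide

/-- The linear observable. -/
noncomputable def lin (V : Finset (ℤ × ℤ)) (g : ℤ × ℤ → ℝ) (h : ℤ × ℤ → ℤ) : ℝ :=
  ∑ x ∈ V, g x * (h x : ℝ)

theorem lin_mono {V : Finset (ℤ × ℤ)} {g : ℤ × ℤ → ℝ} (hg : ∀ x ∈ V, 0 ≤ g x) :
    Monotone (lin V g) := by
  intro a b hab
  unfold lin
  apply Finset.sum_le_sum
  intro x hx
  apply mul_le_mul_of_nonneg_left _ (hg x hx)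
  exact_mod_cast hab x

/-- Upper constant boundary condition is the lower one shifted by two. -/
theorem ev_plus (D : Finset (ℤ × ℤ)) (F : (ℤ × ℤ → ℤ) → ℝ) :
    ev (Cplus D) F = ev (Cminus D) (fun h => F (fun x => h x + 2)) := by
  have hi : ∀ h ∈ Cplus D, (fun x => h x - 2) ∈ Cminus D := by
    intro h hh
    unfold Cplus Cminus at *
    rw [mem_ConfF] at *
    refine ⟨⟨fun x => ?_, fun x y hxy => ?_⟩, fun x hx => ?_⟩
    · exact (hh.1.1 x).sub_even (by decide)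
    · simpa using hh.1.2 x y hxy
    · simp [hh.2 x hx]
  have hj : ∀ h ∈ Cminus D, (fun x => h x + 2) ∈ Cplus D := by
    intro h hh
    unfold Cplus Cminus at *
    rw [mem_ConfF] at *
    refine ⟨⟨fun x => ?_, fun x y hxy => ?_⟩, fun x hx => ?_⟩
    · exact (hh.1.1 x).add_even (by decide)
    · simpa using hh.1.2 x y hxy
    · simp [hh.2 x hx]
  have hcard : #(Cplus D) = #(Cminus D) := by
    apply Finset.card_nbij' (fun h => fun x => h x - 2) (fun h => fun x => h x + 2)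
    · exact hi
    · exact hj
    · intro h _; funext x; simp
    · intro h _; funext x; simp
  unfold ev
  rw [hcard]
  congr 1
  apply Finset.sum_nbij' (fun h => fun x => h x - 2) (fun h => fun x => h x + 2) hi hj
  · intro h _; funext x; simp
  · intro h _; funext x; simp
  · intro h _; congr 1; funext x; simp

theorem lin_shift (V : Finset (ℤ × ℤ)) (g : ℤ × ℤ → ℝ) (h : ℤ × ℤ → ℤ) :
    lin V g (fun x => h x + 2) = lin V g h + 2 * ∑ x ∈ V, g x := by
  unfold lin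
  rw [Finset.mul_sum, ← Finset.sum_add_distrib]
  apply Finset.sum_congr rfl
  intro x _
  push_cast
  ring

theorem up_compare (D V : Finset (ℤ × ℤ)) (S T : Finset (ℤ × ℤ → ℤ)) (hS : S.Nonempty)
    (hT : T.Nonempty) (bS : Between D S) (bT : Between D T) (g : ℤ × ℤ → ℝ)
    (hg : ∀ x ∈ V, 0 ≤ g x) (ψ : ℝ → ℝ) (hψ : Monotone ψ) :
    ev S (fun h => ψ (lin V g h)) ≤ ev T (fun h => ψ (lin V g h + 2 * ∑ x ∈ V, g x)) := by
  have hp : (Cplus D).Nonempty := nonempty_ConfF _ _ _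
  have hm : (Cminus D).Nonempty := nonempty_ConfF _ _ _
  have h1 : ev S (fun h => ψ (lin V g h)) ≤ ev (Cplus D) (fun h => ψ (lin V g h)) :=
    ev_le_ev S (Cplus D) hS hp (fun a ha b hb => (bS.2 a ha b hb).1)
      (fun a ha b hb => (bS.2 a ha b hb).2) _ (fun a b hab => hψ (lin_mono hg hab))
  have h2 : ev (Cminus D) (fun h => ψ (lin V g h + 2 * ∑ x ∈ V, g x))
      ≤ ev T (fun h => ψ (lin V g h + 2 * ∑ x ∈ V, g x)) :=
    ev_le_ev (Cminus D) T hm hT (fun a ha b hb => (bT.1 a ha b hb).1)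
      (fun a ha b hb => (bT.1 a ha b hb).2) _
      (fun a b hab => hψ (by linarith [lin_mono hg hab]))
  have h3 := ev_plus D (fun h => ψ (lin V g h))
  simp only [lin_shift] at h3
  linarith

theorem rms_between (D V : Finset (ℤ × ℤ)) (S T : Finset (ℤ × ℤ → ℤ)) (hS : S.Nonempty)
    (hT : T.Nonempty) (bS : Between D S) (bT : Between D T) (g : ℤ × ℤ → ℝ)
    (hg : ∀ x ∈ V, 0 ≤ g x) (m : ℝ) :
    √(ev S (fun h => (lin V g h - m) ^ 2)) ≤ √(ev T (fun h => (lin V g h - m) ^ 2))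
      + 2 * ∑ x ∈ V, g x := by
  apply rms_compare S T hS (lin V g) (2 * ∑ x ∈ V, g x)
  · have := Finset.sum_nonneg hg
    linarith
  · intro ψ hψ
    exact up_compare D V S T hS hT bS bT g hg ψ hψ
  · intro ψ hψ
    have h := up_compare D V T S hT hS bT bS g hg (fun t => -ψ (t - 2 * ∑ x ∈ V, g x))
      (fun s t hst => neg_le_neg (hψ (by linarith)))
    simp only [add_sub_cancel_right] at h
    have e : ∀ (R : Finset (ℤ × ℤ → ℤ)) (F : (ℤ × ℤ → ℤ) → ℝ),
        ev R (fun h => -F h) = - ev R F := by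
      intro R F
      have := ev_const_mul R (-1) F
      simpa using this
    rw [e, e] at h
    linarith

theorem ev_sq_lin (S : Finset (ℤ × ℤ → ℤ)) (V : Finset (ℤ × ℤ)) (g : ℤ × ℤ → ℝ) :
    ev S (fun h => (lin V g h) ^ 2)
      = ∑ x ∈ V, ∑ y ∈ V, g x * g y * ev S (fun h => (h x : ℝ) * (h y : ℝ)) := by
  have e : ∀ h : ℤ × ℤ → ℤ, (lin V g h) ^ 2
      = ∑ x ∈ V, ∑ y ∈ V, g x * g y * ((h x : ℝ) * (h y : ℝ)) := by
    intro h
    unfold lin
    rw [sq, Finset.sum_mul_sum]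
    apply Finset.sum_congr rfl
    intro x _
    apply Finset.sum_congr rfl
    intro y _
    ring
  unfold ev
  simp only [e]
  rw [Finset.sum_comm, Finset.sum_div]
  apply Finset.sum_congr rfl
  intro x _
  rw [Finset.sum_comm, Finset.sum_div]
  apply Finset.sum_congr rfl
  intro y _
  rw [← Finset.mul_sum, mul_div_assoc]

theorem ev_lin (S : Finset (ℤ × ℤ → ℤ)) (V : Finset (ℤ × ℤ)) (g : ℤ × ℤ → ℝ) :
    ev S (lin V g) = ∑ x ∈ V, g x * ev S (fun h => (h x : ℝ)) := by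
  unfold ev lin
  rw [Finset.sum_comm, Finset.sum_div]
  apply Finset.sum_congr rfl
  intro x _
  rw [← Finset.mul_sum, mul_div_assoc]

theorem ev_centre {α : Type*} (S : Finset α) (hS : S.Nonempty) (X : α → ℝ) (m : ℝ) :
    ev S (fun a => (X a - m) ^ 2) = ev S (fun a => X a ^ 2) - 2 * m * ev S X + m ^ 2 := by
  have : (fun a => (X a - m) ^ 2) = fun a => (X a ^ 2 - (2 * m) * X a) + m ^ 2 := by
    funext a; ring
  rw [this, ev_add, ev_sub, ev_const_mul, ev_const S hS]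

/-- Variance under a uniform finite measure. -/
noncomputable def vr {α : Type*} (S : Finset α) (X : α → ℝ) : ℝ :=
  ev S (fun a => (X a - ev S X) ^ 2)

theorem vr_eq {α : Type*} (S : Finset α) (hS : S.Nonempty) (X : α → ℝ) :
    vr S X = ev S (fun a => X a ^ 2) - (ev S X) ^ 2 := by
  unfold vr
  rw [ev_centre S hS]
  ring

/-- Replacing coefficients by their absolute values increases the variance. -/
theorem vr_le_abs (D V : Finset (ℤ × ℤ)) (η : ℤ × ℤ → ℤ) (hη : ∀ x, η x = 1 ∨ η x = -1)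
    (f : ℤ × ℤ → ℝ) :
    vr (ConfF D η hη) (lin V f) ≤ vr (ConfF D η hη) (lin V (fun x => |f x|)) := by
  have hne := nonempty_ConfF D η hη
  have hinf : ∀ a ∈ ConfF D η hη, ∀ b ∈ ConfF D η hη, a ⊓ b ∈ ConfF D η hη := by
    intro a ha b hb
    rw [mem_ConfF] at *
    refine ⟨ha.1.inf hb.1, fun x hx => ?_⟩
    simp [ha.2 x hx, hb.2 x hx]
  have hsup : ∀ a ∈ ConfF D η hη, ∀ b ∈ ConfF D η hη, a ⊔ b ∈ ConfF D η hη := by
    intro a ha b hb
    rw [mem_ConfF] at *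
    refine ⟨ha.1.sup hb.1, fun x hx => ?_⟩
    simp [ha.2 x hx, hb.2 x hx]
  have hm : ∀ x : ℤ × ℤ, Monotone (fun h : ℤ × ℤ → ℤ => (h x : ℝ)) := by
    intro x a b hab
    exact Int.cast_le.2 (hab x)
  have hcov : ∀ x y, 0 ≤ ev (ConfF D η hη) (fun h => (h x : ℝ) * (h y : ℝ))
      - ev (ConfF D η hη) (fun h => (h x : ℝ)) * ev (ConfF D η hη) (fun h => (h y : ℝ)) := by
    intro x y
    have := ev_mul_ge (ConfF D η hη) hne hinf hsup _ _ (hm x) (hm y)
    linarith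
  have e : ∀ g : ℤ × ℤ → ℝ, vr (ConfF D η hη) (lin V g)
      = ∑ x ∈ V, ∑ y ∈ V, g x * g y * (ev (ConfF D η hη) (fun h => (h x : ℝ) * (h y : ℝ))
      - ev (ConfF D η hη) (fun h => (h x : ℝ)) * ev (ConfF D η hη) (fun h => (h y : ℝ))) := by
    intro g
    rw [vr_eq _ hne, ev_sq_lin, ev_lin, sq, Finset.sum_mul_sum, ← Finset.sum_sub_distrib]
    apply Finset.sum_congr rfl
    intro x _
    rw [← Finset.sum_sub_distrib]
    apply Finset.sum_congr rfl
    intro y _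
    ring
  rw [e, e]
  apply Finset.sum_le_sum
  intro x _
  apply Finset.sum_le_sum
  intro y _
  apply mul_le_mul_of_nonneg_right _ (hcov x y)
  rw [← abs_mul]
  exact le_abs_self _

/-- The closure of a finite set of vertices. -/
def clo (D : Finset (ℤ × ℤ)) : Finset (ℤ × ℤ) :=
  D ∪ D.biUnion (fun x => {(x.1 + 1, x.2), (x.1 - 1, x.2), (x.1, x.2 + 1), (x.1, x.2 - 1),
    (x.1 + 1, x.2 - 1), (x.1 - 1, x.2 + 1)})

theorem sub_clo (D : Finset (ℤ × ℤ)) : ∀ x ∈ D, x ∈ clo D := fun x hx =>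
  Finset.mem_union_left _ hx

theorem adj_clo (D : Finset (ℤ × ℤ)) : ∀ x ∈ D, ∀ y, Adj x y → y ∈ clo D := by
  intro x hx y hxy
  apply Finset.mem_union_right
  rw [Finset.mem_biUnion]
  refine ⟨x, hx, ?_⟩
  unfold Adj at hxy
  obtain ⟨y1, y2⟩ := y
  simp only [Set.mem_insert_iff, Set.mem_singleton_iff, Prod.mk.injEq] at hxy
  simp only [Finset.mem_insert, Finset.mem_singleton, Prod.mk.injEq]
  omega

/-- Main comparison, in terms of averages. -/
theorem main_vr (D D' : Finset (ℤ × ℤ)) (hD : D' ⊆ D) (η η' : ℤ × ℤ → ℤ)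
    (hη : ∀ x, η x = 1 ∨ η x = -1) (hη' : ∀ x, η' x = 1 ∨ η' x = -1) (f : ℤ × ℤ → ℝ) :
    √(vr (ConfF D' η' hη') (lin D' f))
      ≤ √(vr (ConfF D η hη) (lin D' (fun x => |f x|))) + 4 * ∑ x ∈ D', |f x| := by
  set g : ℤ × ℤ → ℝ := fun x => |f x| with hg
  have hg0 : ∀ x, 0 ≤ g x := fun x => abs_nonneg _
  set U := clo D with hU
  have hDU : ∀ x ∈ D, x ∈ U := sub_clo D
  have hD'U : ∀ x ∈ D', x ∈ U := fun x hx => hDU x (hD hx)
  have hadj : ∀ x ∈ D, ∀ y, Adj x y → y ∈ U := adj_clo D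
  set S := ConfF D' η' hη'
  set T := ConfF D η hη
  set A := FreeF D' U
  set B := FreeF D U
  have nS : S.Nonempty := nonempty_ConfF _ _ _
  have nT : T.Nonempty := nonempty_ConfF _ _ _
  have nA : A.Nonempty := nonempty_free _ _
  have nB : B.Nonempty := nonempty_free _ _
  set m := ev T (lin D' g) with hm
  have s1 : √(vr S (lin D' f)) ≤ √(vr S (lin D' g)) :=
    Real.sqrt_le_sqrt (vr_le_abs D' D' η' hη' f)
  have s2 : √(vr S (lin D' g)) ≤ √(ev S (fun h => (lin D' g h - 0) ^ 2)) := by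
    apply Real.sqrt_le_sqrt
    rw [vr_eq S nS]
    simp only [sub_zero]
    nlinarith [sq_nonneg (ev S (lin D' g))]
  have s3 : √(ev S (fun h => (lin D' g h - 0) ^ 2))
      ≤ √(ev A (fun h => (lin D' g h - 0) ^ 2)) + 2 * ∑ x ∈ D', g x :=
    rms_between D' D' S A nS nA (between_conf _ _ _) (between_free D' U hD'U) g
      (fun x _ => hg0 x) 0
  have s4 : √(ev A (fun h => (lin D' g h - 0) ^ 2)) ≤ √(ev B (fun h => (lin D' g h - 0) ^ 2)) := by
    apply Real.sqrt_le_sqrt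
    simp only [sub_zero]
    rw [ev_sq_lin, ev_sq_lin]
    apply Finset.sum_le_sum
    intro x _
    apply Finset.sum_le_sum
    intro y _
    exact mul_le_mul_of_nonneg_left (free_two_mono hD hDU x y) (mul_nonneg (hg0 x) (hg0 y))
  have hBz : ev B (lin D' g) = 0 := by
    rw [ev_lin]
    apply Finset.sum_eq_zero
    intro x hx
    have := free_one hadj (hD'U x hx)
    unfold ev
    rw [this]
    simp
  have s5 : √(ev B (fun h => (lin D' g h - 0) ^ 2)) ≤ √(ev B (fun h => (lin D' g h - m) ^ 2)) := by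
    apply Real.sqrt_le_sqrt
    rw [ev_centre B nB, ev_centre B nB, hBz]
    nlinarith [sq_nonneg m]
  have s6 : √(ev B (fun h => (lin D' g h - m) ^ 2))
      ≤ √(ev T (fun h => (lin D' g h - m) ^ 2)) + 2 * ∑ x ∈ D', g x :=
    rms_between D D' B T nB nT (between_free D U hDU) (between_conf _ _ _) g
      (fun x _ => hg0 x) m
  have s7 : ev T (fun h => (lin D' g h - m) ^ 2) = vr T (lin D' g) := rfl
  rw [s7] at s6
  linarith

end Vale.Agent.P153
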