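import Mathlib
import Vale.Agent.P153.FkgMain

namespace Vale.Agent.P153

open MeasureTheory ProbabilityTheory

theorem integral_uniformOn (S : Finset (ℤ × ℤ → ℤ))
    (F : (ℤ × ℤ → ℤ) → ℝ) :
    ∫ h, F h ∂(uniformOn (S : Set (ℤ × ℤ → ℤ))) = ev S F := by
  unfold uniformOn
  rw [ProbabilityTheory.cond, integral_smul_measure, setIntegral_finset]
  · unfold ev
    rw [Measure.count_apply_finset, div_eq_inv_mul, smul_eq_mul]
    congr 1
    · simp
    · apply Finset.sum_congr rfl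
      intro h _
      simp [Measure.real]
  · rw [← (S : Set (ℤ × ℤ → ℤ)).biUnion_of_singleton]
    simp [integrableOn_finset_iUnion]

theorem variance_uniformOn (D : Finset (ℤ × ℤ)) (η : ℤ × ℤ → ℤ)
    (hη : ∀ x, η x = 1 ∨ η x = -1) (F : (ℤ × ℤ → ℤ) → ℝ) (hF : Measurable F) :
    variance F (uniformOn (Conf D η)) = vr (ConfF D η hη) F := by
  have e : Conf D η = ((ConfF D η hη : Finset (ℤ × ℤ → ℤ)) : Set (ℤ × ℤ → ℤ)) := by
    simp [ConfF]
  rw [e, variance_eq_integral hF.aemeasurable, integral_uniformOn,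
    integral_uniformOn]
  rfl

theorem measurable_lin (V : Finset (ℤ × ℤ)) (g : ℤ × ℤ → ℝ) :
    Measurable (fun h : ℤ × ℤ → ℤ => ∑ x ∈ V, g x * (h x : ℝ)) := by
  apply Finset.measurable_sum
  intro x _
  apply Measurable.const_mul
  exact (measurable_of_countable (fun n : ℤ => (n : ℝ))).comp (measurable_pi_apply x)

/-- Domain comparison. -/
theorem domain_comparison (D D' : Finset (ℤ × ℤ)) (hD : D' ⊆ D) (η η' : ℤ × ℤ → ℤ)
    (hη : ∀ x, η x = 1 ∨ η x = -1) (hη' : ∀ x, η' x = 1 ∨ η' x = -1) (f : ℤ × ℤ → ℝ) :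
    √(variance (fun h : ℤ × ℤ → ℤ => ∑ x ∈ D', f x * (h x : ℝ)) (uniformOn (Conf D' η')))
      ≤ √(variance (fun h : ℤ × ℤ → ℤ => ∑ x ∈ D', |f x| * (h x : ℝ)) (uniformOn (Conf D η)))
        + 4 * ∑ x ∈ D', |f x| := by
  rw [variance_uniformOn D' η' hη' _ (measurable_lin D' f),
    variance_uniformOn D η hη _ (measurable_lin D' (fun x => |f x|))]
  exact main_vr D D' hD η η' hη hη' f

end Vale.Agent.P153
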