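import Mathlib

/-!
Isotropy of a Stieltjes measure seen in two non-parallel, non-perpendicular
reflection directions.
-/

open MeasureTheory Set

namespace Vale.P153.Iso

/-- Exact identity, triangular lattice, angle zero. -/
theorem id_zero {z : ℝ} (hz : 0 < z) :
    (1 / z - 1) = (1 / 3) * ((1 - z) ^ 2 / (z * (z + 1 / 3)))
      + (4 / 3) * ((1 - z) / (z + 1 / 3)) := by
  have h1 : z ≠ 0 := hz.ne'
  have h2 : z + 1 / 3 ≠ 0 := by positivity
  field_simp
  ring

/-- Exact identity, triangular lattice, angle sixty degrees. -/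
theorem id_sixty {z : ℝ} (hz : 0 < z) :
    (4 / (3 + z) - 1) = -(2 / 3) * ((1 - z) ^ 2 / ((z + 3) * (z + 1 / 3)))
      + (1 / 3) * ((1 - z) / (z + 1 / 3)) := by
  have h1 : 3 + z ≠ 0 := by positivity
  have h1' : z + 3 ≠ 0 := by positivity
  have h2 : z + 1 / 3 ≠ 0 := by positivity
  field_simp
  ring

/-- The zero-sum weight expressed through the value at thirty degrees. -/
theorem id_thirty {z : ℝ} (hz : 0 < z) :
    (1 - z) / (z + 1 / 3) = (4 / 3) * (1 / (z + 1 / 3)) - 1 := by
  have h2 : z + 1 / 3 ≠ 0 := by positivity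
  field_simp
  ring

section tri

variable {m : Measure ℝ} [IsFiniteMeasure m] {κ : ℝ}

theorem integrable_shift (hpos : ∀ᵐ z ∂m, 0 < z) {c : ℝ} (hc : 0 < c) :
    Integrable (fun z : ℝ => 1 / (z + c)) m := by
  refine Integrable.mono' (integrable_const (1 / c)) ?_ ?_
  · exact (Measurable.aestronglyMeasurable (by fun_prop))
  · filter_upwards [hpos] with z hz
    rw [Real.norm_eq_abs, abs_of_nonneg (by positivity)]
    apply one_div_le_one_div_of_le hc
    linarith

theorem integrable_thirty (hpos : ∀ᵐ z ∂m, 0 < z) :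
    Integrable (fun z : ℝ => (1 - z) / (z + 1 / 3)) m := by
  have h := ((integrable_shift (m := m) hpos (c := 1 / 3) (by norm_num)).const_mul (4 / 3)).sub
    (integrable_const (1 : ℝ))
  refine h.congr ?_
  filter_upwards [hpos] with z hz
  simp only [Pi.sub_apply]
  exact (id_thirty hz).symm

theorem integral_thirty (hpos : ∀ᵐ z ∂m, 0 < z) (h1 : m.real univ = κ)
    (h2 : ∫ z, 1 / (z + 1 / 3) ∂m = 3 * κ / 4) :
    ∫ z, (1 - z) / (z + 1 / 3) ∂m = 0 := by
  have e : ∫ z, (1 - z) / (z + 1 / 3) ∂m = ∫ z, ((4 / 3) * (1 / (z + 1 / 3)) - 1) ∂m := by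
    apply integral_congr_ae
    filter_upwards [hpos] with z hz
    exact id_thirty hz
  rw [e, integral_sub ((integrable_shift hpos (by norm_num)).const_mul _) (integrable_const _),
    integral_const_mul, h2, integral_const, smul_eq_mul, h1]
  ring

/-- The value at angle zero is at least `κ`, and equality forces `m = κ δ₁`. -/
theorem zero_ge (hpos : ∀ᵐ z ∂m, 0 < z) (h1 : m.real univ = κ)
    (h2 : ∫ z, 1 / (z + 1 / 3) ∂m = 3 * κ / 4) (hint : Integrable (fun z : ℝ => 1 / z) m) :
    ∫ z, 1 / z ∂m - κ = (1 / 3) * ∫ z, (1 - z) ^ 2 / (z * (z + 1 / 3)) ∂m := by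
  have hI : Integrable (fun z : ℝ => (1 - z) ^ 2 / (z * (z + 1 / 3))) m := by
    have h := ((hint.sub (integrable_const (1 : ℝ))).sub
      ((integrable_thirty (m := m) hpos).const_mul (4 / 3))).const_mul 3
    refine h.congr ?_
    filter_upwards [hpos] with z hz
    simp only [Pi.sub_apply]
    have := id_zero hz
    linarith
  have e : ∫ z, (1 / z - 1) ∂m = ∫ z, ((1 / 3) * ((1 - z) ^ 2 / (z * (z + 1 / 3)))
      + (4 / 3) * ((1 - z) / (z + 1 / 3))) ∂m := by
    apply integral_congr_ae
    filter_upwards [hpos] with z hz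
    exact id_zero hz
  rw [integral_sub hint (integrable_const _), integral_const, smul_eq_mul, h1, mul_one,
    integral_add (hI.const_mul _) ((integrable_thirty hpos).const_mul _), integral_const_mul,
    integral_const_mul, integral_thirty hpos h1 h2, mul_zero, add_zero] at e
  exact e

theorem sixty_le (hpos : ∀ᵐ z ∂m, 0 < z) (h1 : m.real univ = κ)
    (h2 : ∫ z, 1 / (z + 1 / 3) ∂m = 3 * κ / 4) :
    4 * ∫ z, 1 / (3 + z) ∂m - κ
      = -(2 / 3) * ∫ z, (1 - z) ^ 2 / ((z + 3) * (z + 1 / 3)) ∂m := by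
  have hint : Integrable (fun z : ℝ => 1 / (3 + z)) m := by
    have := integrable_shift (m := m) hpos (c := 3) (by norm_num)
    refine this.congr (Filter.Eventually.of_forall fun z => ?_)
    simp only [add_comm]
  have hint4 : Integrable (fun z : ℝ => 4 / (3 + z)) m := by
    refine (hint.const_mul 4).congr (Filter.Eventually.of_forall fun z => ?_)
    simp only []
    ring
  have hI : Integrable (fun z : ℝ => (1 - z) ^ 2 / ((z + 3) * (z + 1 / 3))) m := by
    have h := (((hint4.sub (integrable_const (1 : ℝ))).sub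
      ((integrable_thirty (m := m) hpos).const_mul (1 / 3)))).const_mul (-(3 / 2))
    refine h.congr ?_
    filter_upwards [hpos] with z hz
    simp only [Pi.sub_apply]
    have := id_sixty hz
    linarith
  have e : ∫ z, (4 / (3 + z) - 1) ∂m
      = ∫ z, (-(2 / 3) * ((1 - z) ^ 2 / ((z + 3) * (z + 1 / 3)))
        + (1 / 3) * ((1 - z) / (z + 1 / 3))) ∂m := by
    apply integral_congr_ae
    filter_upwards [hpos] with z hz
    exact id_sixty hz
  have e4 : ∫ z, 4 / (3 + z) ∂m = 4 * ∫ z, 1 / (3 + z) ∂m := by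
    rw [← integral_const_mul]
    apply integral_congr_ae
    filter_upwards with z
    ring
  rw [integral_sub hint4 (integrable_const _), integral_const, smul_eq_mul, h1, mul_one,
    integral_add (hI.const_mul _) ((integrable_thirty hpos).const_mul _), integral_const_mul,
    integral_const_mul, integral_thirty hpos h1 h2, mul_zero, add_zero, e4] at e
  exact e

/-- Inequalities: the value at angle sixty at the doubled scale is at most `κ`, the value at
angle zero is at least `κ`. -/
theorem zero_ge' (hpos : ∀ᵐ z ∂m, 0 < z) (h1 : m.real univ = κ)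
    (h2 : ∫ z, 1 / (z + 1 / 3) ∂m = 3 * κ / 4) (hint : Integrable (fun z : ℝ => 1 / z) m) :
    κ ≤ ∫ z, 1 / z ∂m := by
  have h := zero_ge hpos h1 h2 hint
  have h0 : 0 ≤ ∫ z, (1 - z) ^ 2 / (z * (z + 1 / 3)) ∂m := by
    apply integral_nonneg_of_ae
    filter_upwards [hpos] with z hz
    simp only [Pi.zero_apply]
    positivity
  linarith

theorem sixty_le' (hpos : ∀ᵐ z ∂m, 0 < z) (h1 : m.real univ = κ)
    (h2 : ∫ z, 1 / (z + 1 / 3) ∂m = 3 * κ / 4) :
    4 * ∫ z, 1 / (3 + z) ∂m ≤ κ := by
  have h := sixty_le hpos h1 h2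
  have h0 : 0 ≤ ∫ z, (1 - z) ^ 2 / ((z + 3) * (z + 1 / 3)) ∂m := by
    apply integral_nonneg_of_ae
    filter_upwards [hpos] with z hz
    simp only [Pi.zero_apply]
    positivity
  linarith

/-- Rigidity: if the value at angle sixty equals `κ`, then `m = κ δ₁`. -/
theorem eq_dirac (hpos : ∀ᵐ z ∂m, 0 < z) (h1 : m.real univ = κ)
    (h2 : ∫ z, 1 / (z + 1 / 3) ∂m = 3 * κ / 4) (h3 : κ ≤ 4 * ∫ z, 1 / (3 + z) ∂m) :
    m = ENNReal.ofReal κ • Measure.dirac 1 := by
  have hint : Integrable (fun z : ℝ => 1 / (3 + z)) m := by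
    have := integrable_shift (m := m) hpos (c := 3) (by norm_num)
    refine this.congr (Filter.Eventually.of_forall fun z => ?_)
    simp only [add_comm]
  have hI : Integrable (fun z : ℝ => (1 - z) ^ 2 / ((z + 3) * (z + 1 / 3))) m := by
    have h := ((((hint.const_mul 4).sub (integrable_const (1 : ℝ))).sub
      ((integrable_thirty (m := m) hpos).const_mul (1 / 3)))).const_mul (-(3 / 2))
    refine h.congr ?_
    filter_upwards [hpos] with z hz
    simp only [Pi.sub_apply]
    have h4 : 4 * (1 / (3 + z)) = 4 / (3 + z) := by ring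
    have := id_sixty hz
    rw [h4]
    linarith
  have h0 : 0 ≤ᵐ[m] fun z : ℝ => (1 - z) ^ 2 / ((z + 3) * (z + 1 / 3)) := by
    filter_upwards [hpos] with z hz
    simp only [Pi.zero_apply]
    positivity
  have hz : ∫ z, (1 - z) ^ 2 / ((z + 3) * (z + 1 / 3)) ∂m = 0 := by
    have h := sixty_le hpos h1 h2
    have := integral_nonneg_of_ae h0
    linarith
  have hae := (integral_eq_zero_iff_of_nonneg_ae h0 hI).1 hz
  have hone : ∀ᵐ z ∂m, z = 1 := by
    filter_upwards [hae, hpos] with z hz hzp
    simp only [Pi.zero_apply] at hz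
    rcases div_eq_zero_iff.1 hz with h | h
    · nlinarith [pow_eq_zero_iff (two_ne_zero) |>.1 h]
    · exfalso
      have : 0 < (z + 3) * (z + 1 / 3) := by positivity
      linarith
  have hsupp : m {z | z ≠ 1} = 0 := hone
  have hm1 : m = m.restrict {1} := by
    refine (Measure.restrict_eq_self_of_ae_mem ?_).symm
    filter_upwards [hone] with z hz
    simpa using hz
  rw [hm1, Measure.restrict_singleton]
  congr 1
  have hu : m univ = m {1} := by
    conv_lhs => rw [hm1]
    rw [Measure.restrict_apply_univ]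
  rw [← h1, measureReal_def, hu, ENNReal.ofReal_toReal (measure_ne_top _ _)]

end tri

section square

/-- Exact identity on the square lattice, value at forty five degrees. -/
theorem id_diag {z : ℝ} (hz : 0 < z) :
    (2 / (1 + z) - 1) = -(1 / 2) * ((1 - z) ^ 2 / (z * (1 + z)))
      + (1 / 2) * (1 / z - 1) := by
  have h1 : z ≠ 0 := hz.ne'
  have h2 : 1 + z ≠ 0 := by positivity
  field_simp
  ring

variable {m : Measure ℝ} [IsFiniteMeasure m] {κ : ℝ}

/-- Square lattice: with total mass `κ` and `∫ 1/z = κ`, the value at forty five degrees is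
`κ` minus a nonnegative defect. -/
theorem diag_eq (hpos : ∀ᵐ z ∂m, 0 < z) (h1 : m.real univ = κ)
    (hint : Integrable (fun z : ℝ => 1 / z) m) (h2 : ∫ z, 1 / z ∂m = κ) :
    Integrable (fun z : ℝ => (1 - z) ^ 2 / (z * (1 + z))) m ∧
    2 * ∫ z, 1 / (1 + z) ∂m - κ = -(1 / 2) * ∫ z, (1 - z) ^ 2 / (z * (1 + z)) ∂m := by
  have hi1 : Integrable (fun z : ℝ => 1 / (1 + z)) m := by
    have := integrable_shift (m := m) hpos (c := 1) (by norm_num)
    refine this.congr (Filter.Eventually.of_forall fun z => ?_)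
    simp only [add_comm]
  have hI : Integrable (fun z : ℝ => (1 - z) ^ 2 / (z * (1 + z))) m := by
    have h := ((((hi1.const_mul 2).sub (integrable_const (1 : ℝ))).sub
      ((hint.sub (integrable_const (1 : ℝ))).const_mul (1 / 2)))).const_mul (-2)
    refine h.congr ?_
    filter_upwards [hpos] with z hz
    simp only [Pi.sub_apply]
    have h4 : 2 * (1 / (1 + z)) = 2 / (1 + z) := by ring
    have := id_diag hz
    rw [h4]
    linarith
  refine ⟨hI, ?_⟩
  have e : ∫ z, (2 * (1 / (1 + z)) - 1) ∂m = ∫ z, (-(1 / 2) * ((1 - z) ^ 2 / (z * (1 + z)))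
      + (1 / 2) * (1 / z - 1)) ∂m := by
    apply integral_congr_ae
    filter_upwards [hpos] with z hz
    have h4 : 2 * (1 / (1 + z)) = 2 / (1 + z) := by ring
    rw [h4]
    exact id_diag hz
  have hs : Integrable (fun z : ℝ => (1 / 2) * (1 / z - 1)) m :=
    (hint.sub (integrable_const (1 : ℝ))).const_mul _
  have hv : ∫ z : ℝ, (1 / 2) * (1 / z - 1) ∂m = 0 := by
    rw [integral_const_mul, integral_sub hint (integrable_const _), integral_const, smul_eq_mul,
      h1, h2]
    ring
  rw [integral_sub (hi1.const_mul _) (integrable_const _), integral_const, smul_eq_mul, h1,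
    mul_one, integral_add (hI.const_mul _) hs, hv,
    integral_const_mul, integral_const_mul, add_zero] at e
  exact e

theorem diag_le (hpos : ∀ᵐ z ∂m, 0 < z) (h1 : m.real univ = κ)
    (hint : Integrable (fun z : ℝ => 1 / z) m) (h2 : ∫ z, 1 / z ∂m = κ) :
    2 * ∫ z, 1 / (1 + z) ∂m ≤ κ := by
  have h := (diag_eq hpos h1 hint h2).2
  have h0 : 0 ≤ ∫ z, (1 - z) ^ 2 / (z * (1 + z)) ∂m := by
    apply integral_nonneg_of_ae
    filter_upwards [hpos] with z hz
    simp only [Pi.zero_apply]
    positivity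
  linarith

/-- Square lattice rigidity. -/
theorem eq_dirac_sq (hpos : ∀ᵐ z ∂m, 0 < z) (h1 : m.real univ = κ)
    (hint : Integrable (fun z : ℝ => 1 / z) m) (h2 : ∫ z, 1 / z ∂m = κ)
    (h3 : κ ≤ 2 * ∫ z, 1 / (1 + z) ∂m) :
    m = ENNReal.ofReal κ • Measure.dirac 1 := by
  obtain ⟨hI, hE⟩ := diag_eq hpos h1 hint h2
  have h0 : 0 ≤ᵐ[m] fun z : ℝ => (1 - z) ^ 2 / (z * (1 + z)) := by
    filter_upwards [hpos] with z hz
    simp only [Pi.zero_apply]
    positivity
  have hz : ∫ z, (1 - z) ^ 2 / (z * (1 + z)) ∂m = 0 := by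
    have := integral_nonneg_of_ae h0
    linarith
  have hae := (integral_eq_zero_iff_of_nonneg_ae h0 hI).1 hz
  have hone : ∀ᵐ z ∂m, z = 1 := by
    filter_upwards [hae, hpos] with z hz hzp
    simp only [Pi.zero_apply] at hz
    rcases div_eq_zero_iff.1 hz with h | h
    · nlinarith [pow_eq_zero_iff (two_ne_zero) |>.1 h]
    · exfalso
      have : 0 < z * (1 + z) := by positivity
      linarith
  have hm1 : m = m.restrict {1} := by
    refine (Measure.restrict_eq_self_of_ae_mem ?_).symm
    filter_upwards [hone] with z hz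
    simpa using hz
  rw [hm1, Measure.restrict_singleton]
  congr 1
  have hu : m univ = m {1} := by
    conv_lhs => rw [hm1]
    rw [Measure.restrict_apply_univ]
  rw [← h1, measureReal_def, hu, ENNReal.ofReal_toReal (measure_ne_top _ _)]

end square

end Vale.P153.Iso
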