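import Vale.Agent.P153.LevelTopo

namespace Vale.Agent.P153

open Finset

/-- mod 2 boundary of a chain of triangles -/
noncomputable def bd (F : (ℤ × ℤ) × Bool → ZMod 2) (e : Sym2 (ℤ × ℤ)) : ZMod 2 :=
  ∑ᶠ (t) (_ : t ∈ {t | e ∈ edges t}), F t

theorem bd_hor (F : (ℤ × ℤ) × Bool → ZMod 2) (i j : ℤ) :
    bd F s((i, j), (i + 1, j)) = F ((i, j), false) + F ((i, j - 1), true) := by
  have : {t | s((i, j), (i + 1, j)) ∈ edges t} = {((i, j), false), ((i, j - 1), true)} := by
    ext t; simp only [Set.mem_ofPred_eq, mem_hor, Set.mem_insert_iff, Set.mem_singleton_iff]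
  rw [bd, this, finsum_mem_pair (by simp)]

theorem bd_vert (F : (ℤ × ℤ) × Bool → ZMod 2) (i j : ℤ) :
    bd F s((i, j), (i, j + 1)) = F ((i, j), false) + F ((i - 1, j), true) := by
  have : {t | s((i, j), (i, j + 1)) ∈ edges t} = {((i, j), false), ((i - 1, j), true)} := by
    ext t; simp only [Set.mem_ofPred_eq, mem_vert, Set.mem_insert_iff, Set.mem_singleton_iff]
  rw [bd, this, finsum_mem_pair (by simp)]

theorem bd_diag (F : (ℤ × ℤ) × Bool → ZMod 2) (i j : ℤ) :
    bd F s((i + 1, j), (i, j + 1)) = F ((i, j), false) + F ((i, j), true) := by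
  have : {t | s((i + 1, j), (i, j + 1)) ∈ edges t} = {((i, j), false), ((i, j), true)} := by
    ext t; simp only [Set.mem_ofPred_eq, mem_diag, Set.mem_insert_iff, Set.mem_singleton_iff]
  rw [bd, this, finsum_mem_pair (by simp)]

/-- the six neighbours -/
def nb (v : ℤ × ℤ) : Finset (ℤ × ℤ) :=
  {(v.1 + 1, v.2), (v.1 - 1, v.2), (v.1, v.2 + 1), (v.1, v.2 - 1), (v.1 + 1, v.2 - 1),
    (v.1 - 1, v.2 + 1)}

theorem mem_nb {v u : ℤ × ℤ} : u ∈ nb v ↔ Step v u := by
  obtain ⟨a, b⟩ := v
  obtain ⟨p, q⟩ := u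
  simp only [nb, mem_insert, mem_singleton, Prod.mk.injEq, Step]

theorem bd_star (F : (ℤ × ℤ) × Bool → ZMod 2) (v : ℤ × ℤ) :
    ∑ u ∈ nb v, bd F s(v, u) = 0 := by
  obtain ⟨a, b⟩ := v
  unfold nb
  rw [sum_insert, sum_insert, sum_insert, sum_insert, sum_insert, sum_singleton]
  · have h1 := bd_hor F a b
    have h2 := bd_hor F (a - 1) b
    have h3 := bd_vert F a b
    have h4 := bd_vert F a (b - 1)
    have h5 := bd_diag F a (b - 1)
    have h6 := bd_diag F (a - 1) b
    rw [sub_add_cancel] at h2 h4 h5 h6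
    rw [Sym2.eq_swap] at h2 h4 h5
    simp only
    rw [h1, h2, h3, h4, h5, h6]
    have h0 : (2 : ZMod 2) = 0 := rfl
    linear_combination (F ((a, b), false) + F ((a, b - 1), true) + F ((a - 1, b), false) +
      F ((a - 1, b - 1), true) + F ((a - 1, b), true) + F ((a, b - 1), false)) * h0
  all_goals
    simp only [mem_insert, mem_singleton, Prod.mk.injEq]
    omega

/-- a chain without boundary which vanishes far to the right is zero -/
theorem chain_zero (F : (ℤ × ℤ) × Bool → ZMod 2)
    (hb : ∀ x y, Step x y → bd F s(x, y) = 0) (N : ℤ) (hN : ∀ i j b, N < i → F ((i, j), b) = 0) :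
    ∀ t, F t = 0 := by
  have h1 : ∀ i j, F ((i, j), false) = F ((i, j), true) := by
    intro i j
    have := hb (i + 1, j) (i, j + 1) (by unfold Step; dsimp only; omega)
    rw [bd_diag] at this
    have h0 : (2 : ZMod 2) = 0 := rfl
    linear_combination this - F ((i, j), true) * h0
  have h2 : ∀ i j, F ((i, j), true) = F ((i + 1, j), false) := by
    intro i j
    have := hb (i + 1, j) (i + 1, j + 1) (by unfold Step; dsimp only; omega)
    rw [bd_vert, add_sub_cancel_right] at this
    have h0 : (2 : ZMod 2) = 0 := rfl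
    linear_combination this - F ((i + 1, j), false) * h0
  have h3 : ∀ (k : ℕ) (i j : ℤ), F ((i, j), false) = F ((i + k, j), false) := by
    intro k
    induction k with
    | zero => intro i j; simp
    | succ k ih =>
      intro i j
      rw [ih i j, h1, h2]
      push_cast
      rw [add_assoc]
  have h4 : ∀ i j, F ((i, j), false) = 0 := by
    intro i j
    rw [h3 (N + 1 - i).toNat i j]
    apply hN
    have := Int.self_le_toNat (N + 1 - i)
    omega
  rintro ⟨⟨i, j⟩, b⟩
  cases b
  · exact h4 i j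
  · rw [← h1]; exact h4 i j

section walk

variable (m : ℕ) (x : ℕ → ℤ × ℤ)

/-- the chain filling a closed walk -/
def fill (t : (ℤ × ℤ) × Bool) : ZMod 2 := ∑ k ∈ range m, ray t (x k) (x (k + 1))

/-- number of passages through an edge -/
def wt (e : Sym2 (ℤ × ℤ)) : ZMod 2 := ∑ k ∈ range m, if s(x k, x (k + 1)) = e then 1 else 0

variable {m x}

theorem bd_fill (hx : ∀ k < m, Step (x k) (x (k + 1))) (hc : x m = x 0) {p q : ℤ × ℤ}
    (hpq : Step p q) : bd (fill m x) s(p, q) = wt m x s(p, q) := by
  rcases step_kinds hpq with ⟨i, j, h⟩ | ⟨i, j, h⟩ | ⟨i, j, h⟩ <;> rw [h]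
  · rw [bd_hor]
    have h1 : fill m x ((i, j), false) + fill m x ((i, j - 1), true) +
        wt m x s((i, j), (i + 1, j)) = 0 := by
      unfold fill wt
      rw [← sum_add_distrib, ← sum_add_distrib]
      rw [sum_congr rfl (fun k hk => ray_hor (hx k (mem_range.mp hk)) i j)]
      have h0 : (2 : ZMod 2) = 0 := rfl
      have : ∀ k : ℕ, half i j (x k) + half i j (x (k + 1)) =
          half i j (x (k + 1)) - half i j (x k) := by
        intro k
        linear_combination half i j (x k) * h0
      rw [sum_congr rfl (fun k _ => this k), sum_range_sub (fun k => half i j (x k)) m, hc,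
        sub_self]
    have h0 : (2 : ZMod 2) = 0 := rfl
    linear_combination h1 - wt m x s((i, j), (i + 1, j)) * h0
  · rw [bd_vert]
    unfold fill wt
    rw [← sum_add_distrib]
    apply sum_congr rfl
    intro k hk
    have := ray_vert (hx k (mem_range.mp hk)) (i - 1) j
    rw [sub_add_cancel] at this
    rw [add_comm, this]
  · rw [bd_diag]
    unfold fill wt
    rw [← sum_add_distrib]
    apply sum_congr rfl
    intro k hk
    exact ray_diag (hx k (mem_range.mp hk)) i j

end walk

end Vale.Agent.P153
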