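import Vale.Agent.P153.MathlibUsed

/-!
Uniform odd Lipschitz heights on Jordan polygonal domains made of lattice triangles.
A point `(i, j)` of `ℤ × ℤ` stands for the point `i + j * exp (I * pi / 3)` of the
triangular lattice.
-/

namespace Vale.Agent.P153

/-- The vertices of the upward triangle `((i, j), false)` and of the downward
triangle `((i, j), true)`. -/
def verts : (ℤ × ℤ) × Bool → Finset (ℤ × ℤ)
  | ((i, j), false) => {(i, j), (i + 1, j), (i, j + 1)}
  | ((i, j), true) => {(i + 1, j), (i, j + 1), (i + 1, j + 1)}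

/-- The three edges of a lattice triangle. -/
def edges : (ℤ × ℤ) × Bool → Finset (Sym2 (ℤ × ℤ))
  | ((i, j), false) =>
      {s((i, j), (i + 1, j)), s((i, j), (i, j + 1)), s((i + 1, j), (i, j + 1))}
  | ((i, j), true) =>
      {s((i + 1, j), (i, j + 1)), s((i + 1, j), (i + 1, j + 1)), s((i, j + 1), (i + 1, j + 1))}

theorem verts_false (i j : ℤ) :
    verts ((i, j), false) = {(i, j), (i + 1, j), (i, j + 1)} := by
  simp only [verts]

theorem verts_true (i j : ℤ) :
    verts ((i, j), true) = {(i + 1, j), (i, j + 1), (i + 1, j + 1)} := by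
  simp only [verts]

theorem edges_false (i j : ℤ) : edges ((i, j), false) =
    {s((i, j), (i + 1, j)), s((i, j), (i, j + 1)), s((i + 1, j), (i, j + 1))} := by
  simp only [edges]

theorem edges_true (i j : ℤ) : edges ((i, j), true) =
    {s((i + 1, j), (i, j + 1)), s((i + 1, j), (i + 1, j + 1)), s((i, j + 1), (i + 1, j + 1))} := by
  simp only [edges]

/-- A marked Jordan polygonal domain made of lattice triangles: a finite set `T` of
triangles whose boundary edges (the edges lying in exactly one triangle of `T`) are exactly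
the edges of a simple closed lattice polygon `c 0, c 1, ..., c n = c 0`. The marks split the
boundary vertices into the two arcs `c 0, ..., c (m - 1)` and `c m, ..., c (n - 1)`. -/
structure MarkedDomain where
  T : Finset ((ℤ × ℤ) × Bool)
  n : ℕ
  m : ℕ
  c : ℕ → ℤ × ℤ
  m_pos : 0 < m
  m_lt : m < n
  closed : c n = c 0
  simple : ∀ k l, k < n → l < n → c k = c l → k = l
  boundary : ∀ e : Sym2 (ℤ × ℤ),
    (T.filter (fun t => e ∈ edges t)).card = 1 ↔ ∃ k < n, e = s(c k, c (k + 1))

namespace MarkedDomain

variable (D : MarkedDomain)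

/-- All vertices of the domain. -/
def V : Finset (ℤ × ℤ) := D.T.biUnion verts

/-- Two points are joined by an edge of the domain. -/
def Adj (x y : ℤ × ℤ) : Prop := ∃ t ∈ D.T, s(x, y) ∈ edges t

/-- The height functions: odd integers on the vertices, `1` on the first arc, `-1` on the
second arc, differing by at most `2` along edges, and extended by `0`. -/
def Heights : Set (ℤ × ℤ → ℤ) :=
  {h | (∀ x, x ∉ D.V → h x = 0) ∧ (∀ x ∈ D.V, Odd (h x)) ∧
    (∀ x y, D.Adj x y → |h x - h y| ≤ 2) ∧
    (∀ k, k < D.m → h (D.c k) = 1) ∧ (∀ k, D.m ≤ k → k < D.n → h (D.c k) = -1)}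

/-- The edge `e` of the domain carries heights of opposite signs at its two ends, so that
the affine interpolation of `h` vanishes at its midpoint. -/
def Mixed (h : ℤ × ℤ → ℤ) (e : Sym2 (ℤ × ℤ)) : Prop :=
  ∃ x y, e = s(x, y) ∧ D.Adj x y ∧ 0 < h x ∧ h y < 0

/-- The interface started at the marked boundary edge from `c (n - 1)` to `c 0`: all edges
crossed by the curve of zeros of the affine interpolation that starts there. Two mixed edges
follow each other on that curve when they lie in a common triangle. -/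
def interface (h : ℤ × ℤ → ℤ) : Set (Sym2 (ℤ × ℤ)) :=
  {e | Relation.ReflTransGen
    (fun e e' => D.Mixed h e ∧ D.Mixed h e' ∧ ∃ t ∈ D.T, e ∈ edges t ∧ e' ∈ edges t)
    s(D.c (D.n - 1), D.c 0) e}

/-- The vertices that can be joined to the first arc without crossing an edge of `g`. -/
def plusSide (g : Set (Sym2 (ℤ × ℤ))) : Set (ℤ × ℤ) :=
  {x | ∃ k < D.m, Relation.ReflTransGen (fun x y => D.Adj x y ∧ s(x, y) ∉ g) (D.c k) x}

/-- The vertices that can be joined to the second arc without crossing an edge of `g`. -/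
def minusSide (g : Set (Sym2 (ℤ × ℤ))) : Set (ℤ × ℤ) :=
  {x | ∃ k, D.m ≤ k ∧ k < D.n ∧
    Relation.ReflTransGen (fun x y => D.Adj x y ∧ s(x, y) ∉ g) (D.c k) x}

/-- The height functions of a side `U` of the interface `g` with constant boundary value
`v`: odd integers on `U`, `0` off `U`, differing by at most `2` along the edges of the domain
inside `U`, and equal to `v` at the boundary vertices of the domain lying in `U` and at the
ends in `U` of the edges crossed by the interface. -/
def sideHeights (g : Set (Sym2 (ℤ × ℤ))) (U : Set (ℤ × ℤ)) (v : ℤ) : Set (ℤ × ℤ → ℤ) :=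
  {k | (∀ x, x ∉ U → k x = 0) ∧ (∀ x ∈ U, Odd (k x)) ∧
    (∀ x ∈ U, ∀ y ∈ U, D.Adj x y → |k x - k y| ≤ 2) ∧
    (∀ i < D.n, D.c i ∈ U → k (D.c i) = v) ∧ (∀ x ∈ U, ∀ e ∈ g, x ∈ e → k x = v)}

end MarkedDomain

/-- The mean of `F` over the finite set `S` (uniform distribution on `S`). -/
noncomputable def mean (S : Set (ℤ × ℤ → ℤ)) (F : (ℤ × ℤ → ℤ) → ℝ) : ℝ :=
  (∑ᶠ h ∈ S, F h) / S.ncard

/-- The variance of `F` under the uniform distribution on the finite set `S`. -/
noncomputable def var (S : Set (ℤ × ℤ → ℤ)) (F : (ℤ × ℤ → ℤ) → ℝ) : ℝ :=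
  mean S (fun h => (F h - mean S F) ^ 2)

end Vale.Agent.P153
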