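import Mathlib
import Vale.Agent.P153.LevelDefs

namespace Vale.Agent.P153

open Finset

/-- lattice steps -/
def Step (x y : ℤ × ℤ) : Prop :=
  (y.1 = x.1 + 1 ∧ y.2 = x.2) ∨ (y.1 = x.1 - 1 ∧ y.2 = x.2) ∨
  (y.1 = x.1 ∧ y.2 = x.2 + 1) ∨ (y.1 = x.1 ∧ y.2 = x.2 - 1) ∨
  (y.1 = x.1 + 1 ∧ y.2 = x.2 - 1) ∨ (y.1 = x.1 - 1 ∧ y.2 = x.2 + 1)

theorem step_of_mem {x y : ℤ × ℤ} {t : (ℤ × ℤ) × Bool} (h : s(x, y) ∈ edges t) : Step x y := by
  obtain ⟨⟨i, j⟩, b⟩ := t
  obtain ⟨x1, x2⟩ := x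
  obtain ⟨y1, y2⟩ := y
  cases b <;>
  · simp only [edges, mem_insert, mem_singleton, Sym2.eq_iff, Prod.mk.injEq] at h
    simp only [Step]
    omega

/-- indicator (mod 2) that the step from `x` to `y` crosses the ray going right from `t`. -/
def ray (t : (ℤ × ℤ) × Bool) (x y : ℤ × ℤ) : ZMod 2 :=
  match t with
  | ((i, j), false) =>
      (if x.2 = j ∧ y.2 = j + 1 ∧ i + 1 ≤ x.1 then 1 else 0) +
      (if y.2 = j ∧ x.2 = j + 1 ∧ i + 1 ≤ y.1 then 1 else 0)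
  | ((i, j), true) =>
      (if x.2 = j + 1 ∧ y.2 = j ∧ i + 1 ≤ x.1 then 1 else 0) +
      (if y.2 = j + 1 ∧ x.2 = j ∧ i + 1 ≤ y.1 then 1 else 0)

theorem ray_diag {x y : ℤ × ℤ} (h : Step x y) (i j : ℤ) :
    ray ((i, j), false) x y + ray ((i, j), true) x y =
      if s(x, y) = s((i + 1, j), (i, j + 1)) then 1 else 0 := by
  obtain ⟨x1, x2⟩ := x
  obtain ⟨y1, y2⟩ := y
  simp only [Step] at h
  simp only [ray, Sym2.eq_iff, Prod.mk.injEq]
  rcases h with h | h | h | h | h | h <;> obtain ⟨rfl, rfl⟩ := h <;>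
    split_ifs <;> first | rfl | (exfalso; omega)

theorem ray_vert {x y : ℤ × ℤ} (h : Step x y) (i j : ℤ) :
    ray ((i, j), true) x y + ray ((i + 1, j), false) x y =
      if s(x, y) = s((i + 1, j), (i + 1, j + 1)) then 1 else 0 := by
  obtain ⟨x1, x2⟩ := x
  obtain ⟨y1, y2⟩ := y
  simp only [Step] at h
  simp only [ray, Sym2.eq_iff, Prod.mk.injEq]
  rcases h with h | h | h | h | h | h <;> obtain ⟨rfl, rfl⟩ := h <;>
    split_ifs <;> first | rfl | (exfalso; omega)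

/-- indicator of the half row -/
def half (i j : ℤ) (x : ℤ × ℤ) : ZMod 2 := if x.2 = j ∧ i + 1 ≤ x.1 then 1 else 0

theorem ray_hor {x y : ℤ × ℤ} (h : Step x y) (i j : ℤ) :
    ray ((i, j), false) x y + ray ((i, j - 1), true) x y +
      (if s(x, y) = s((i, j), (i + 1, j)) then 1 else 0) = half i j x + half i j y := by
  obtain ⟨x1, x2⟩ := x
  obtain ⟨y1, y2⟩ := y
  simp only [Step] at h
  simp only [ray, half, Sym2.eq_iff, Prod.mk.injEq]
  rcases h with h | h | h | h | h | h <;> obtain ⟨rfl, rfl⟩ := h <;>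
    split_ifs <;> first | rfl | (exfalso; omega)

theorem mem_hor {i j : ℤ} {t : (ℤ × ℤ) × Bool} :
    s((i, j), (i + 1, j)) ∈ edges t ↔ t = ((i, j), false) ∨ t = ((i, j - 1), true) := by
  obtain ⟨⟨a, b⟩, c⟩ := t
  cases c <;>
  · simp only [edges, mem_insert, mem_singleton, Sym2.eq_iff, Prod.mk.injEq]
    simp only [and_true, and_false, or_false, false_or, Bool.false_eq_true, Bool.true_eq_false]
    omega

theorem mem_vert {i j : ℤ} {t : (ℤ × ℤ) × Bool} :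
    s((i, j), (i, j + 1)) ∈ edges t ↔ t = ((i, j), false) ∨ t = ((i - 1, j), true) := by
  obtain ⟨⟨a, b⟩, c⟩ := t
  cases c <;>
  · simp only [edges, mem_insert, mem_singleton, Sym2.eq_iff, Prod.mk.injEq]
    simp only [and_true, and_false, or_false, false_or, Bool.false_eq_true, Bool.true_eq_false]
    omega

theorem mem_diag {i j : ℤ} {t : (ℤ × ℤ) × Bool} :
    s((i + 1, j), (i, j + 1)) ∈ edges t ↔ t = ((i, j), false) ∨ t = ((i, j), true) := by
  obtain ⟨⟨a, b⟩, c⟩ := t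
  cases c <;>
  · simp only [edges, mem_insert, mem_singleton, Sym2.eq_iff, Prod.mk.injEq]
    simp only [and_true, and_false, or_false, false_or, Bool.false_eq_true, Bool.true_eq_false]
    omega

/-- every lattice edge is of one of the three kinds -/
theorem step_kinds {x y : ℤ × ℤ} (h : Step x y) :
    (∃ i j, s(x, y) = s((i, j), (i + 1, j))) ∨ (∃ i j, s(x, y) = s((i, j), (i, j + 1))) ∨
    (∃ i j, s(x, y) = s((i + 1, j), (i, j + 1))) := by
  obtain ⟨x1, x2⟩ := x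
  obtain ⟨y1, y2⟩ := y
  simp only [Step] at h
  simp only [Sym2.eq_iff, Prod.mk.injEq]
  rcases h with h | h | h | h | h | h
  · exact Or.inl ⟨x1, x2, by omega⟩
  · exact Or.inl ⟨y1, x2, by omega⟩
  · exact Or.inr (Or.inl ⟨x1, x2, by omega⟩)
  · exact Or.inr (Or.inl ⟨x1, y2, by omega⟩)
  · exact Or.inr (Or.inr ⟨x1, y2, by omega⟩)
  · exact Or.inr (Or.inr ⟨y1, x2, by omega⟩)

end Vale.Agent.P153
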